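import Vale.Agent.P262.H161.Asm1

/-! [J-D], assembly 2: the operator `P⁻¹`, and the Gaussian inequality (S') from the localisation
lemma. -/

open scoped BigOperators InnerProductSpace Gradient ContDiff
open Finset InnerProductSpace MeasureTheory ProbabilityTheory Filter

namespace Vale.Agent.P262.H161

open Vale.Agent.P262.JC (rho gw qf Pm Vf exists_equiv Pm_symm)

variable {E : Type*} [NormedAddCommGroup E] [InnerProductSpace ℝ E] [FiniteDimensional ℝ E]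

/-- the Riesz map, as a linear continuous map -/
noncomputable def riesz : E →L[ℝ] (E →L[ℝ] ℝ) :=
  LinearMap.toContinuousLinearMap
    { toFun := fun u => innerSL ℝ u
      map_add' := by intro u v; ext x; simp [inner_add_left]
      map_smul' := by intro c u; ext x; simp [inner_smul_left] }

omit [FiniteDimensional ℝ E] in
lemma riesz_apply [FiniteDimensional ℝ E] (u v : E) : riesz u v = ⟪u, v⟫_ℝ := rfl

/-- `P⁻¹` -/
noncomputable def Pinv (w : E → ℝ) (x : E) : E →L[ℝ] E := (Pm w x).inverse.comp riesz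

lemma riesz_gradient {b : E → ℝ} (x : E) : riesz (∇ b x) = fderiv ℝ b x := by
  ext v
  rw [riesz_apply]
  exact inner_gradient_left ..

lemma energy_eq_qf (w : E → ℝ) {b : E → ℝ} (x : E) :
    ⟪Pinv w x (∇ b x), ∇ b x⟫_ℝ = qf w b x := by
  unfold qf Vf Pinv
  rw [real_inner_comm, ContinuousLinearMap.comp_apply, riesz_gradient, ← riesz_gradient,
    riesz_apply, riesz_gradient]

section props

variable {w : E → ℝ} {δ : ℝ} (hδ : 0 < δ)
    (hc : ∀ x η, fderiv ℝ (fderiv ℝ w) x η η ≤ -(δ * ‖η‖ ^ 2))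

include hδ hc in
lemma Pm_Pinv (x u : E) : Pm w x (Pinv w x u) = riesz u := by
  obtain ⟨e, he⟩ := exists_equiv hδ hc x
  rw [Pinv, ContinuousLinearMap.comp_apply, ← he, ContinuousLinearMap.inverse_equiv]
  exact e.apply_symm_apply _

include hδ hc in
lemma continuous_Pinv (hw : ContDiff ℝ ∞ w) : Continuous (Pinv w) := by
  have hP : ContDiff ℝ ∞ (Pm w) := by
    have h1 : ContDiff ℝ ∞ (fderiv ℝ w) := hw.fderiv_right (by simp)
    exact (h1.fderiv_right (by simp)).neg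
  have hI : ContDiff ℝ ∞ (fun x => (Pm w x).inverse) := by
    rw [contDiff_iff_contDiffAt]
    intro x
    obtain ⟨e, he⟩ := exists_equiv hδ hc x
    have h2 : ContDiffAt ℝ ∞ ContinuousLinearMap.inverse (Pm w x) := by
      rw [← he]; exact contDiffAt_map_inverse e
    exact h2.comp x hP.contDiffAt
  exact (hI.clm_comp contDiff_const).continuous

include hδ hc in
lemma Pinv_symm (hw : ContDiff ℝ ∞ w) (x u v : E) :
    ⟪Pinv w x u, v⟫_ℝ = ⟪u, Pinv w x v⟫_ℝ := by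
  rw [real_inner_comm, ← riesz_apply v, ← riesz_apply u, ← Pm_Pinv hδ hc x v,
    ← Pm_Pinv hδ hc x u, Pm_Pinv hδ hc, Pm_symm hw, Pm_Pinv hδ hc]

include hδ hc in
lemma Pinv_nonneg (x u : E) : 0 ≤ ⟪Pinv w x u, u⟫_ℝ := by
  rw [real_inner_comm, ← riesz_apply u, ← Pm_Pinv hδ hc x u]
  have h1 := hc x (Pinv w x u)
  have h2 : 0 ≤ δ * ‖Pinv w x u‖ ^ 2 := by positivity
  rw [Pm_Pinv hδ hc, ← Pm_Pinv hδ hc x u]
  show 0 ≤ -fderiv ℝ (fderiv ℝ w) x (Pinv w x u) (Pinv w x u)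
  linarith

end props

/-- The localisation lemma (Step 4), for one function `w`. -/
def LOC {k : ℕ} (w : Eu k → ℝ) : Prop :=
  ∀ (J : ℕ) (a : Fin J → Eu k), (∀ x, ∑ j, ⟪a j, x⟫_ℝ ^ 2 ≤ ‖x‖ ^ 2) →
    ∀ G : Eu k → ℝ, ContDiff ℝ ∞ G → (∃ C : ℝ, ∀ x, |G x| ≤ C) → (∃ C : ℝ, ∀ x, ‖∇ G x‖ ≤ C) →
      ∀ η : ℝ, 0 < η → ∃ ξ : Eu k → ℝ, ContDiff ℝ ∞ ξ ∧ HasCompactSupport ξ ∧
        ∫ x, (al w a x * (ξ x - G x) ^ 2 + 1 / 2 * qf w ξ x) * rho w x
          ≤ (2 * ∫ x, al w a x * ‖∇ G x‖ ^ 2 * rho w x) + η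

/-- smooth functions with nonpositive second derivative are concave -/
lemma concaveOn_of_D2 {w : E → ℝ} (hw : ContDiff ℝ ∞ w)
    (h : ∀ x v, fderiv ℝ (fderiv ℝ w) x v v ≤ 0) : ConcaveOn ℝ Set.univ w := by
  refine ⟨convex_univ, fun x _ y _ a b ha hb hab => ?_⟩
  have hd1 : ∀ x, HasFDerivAt w (fderiv ℝ w x) x := fun x =>
    ((hw.differentiable (by simp)) x).hasFDerivAt
  have hw1 : ContDiff ℝ ∞ (fderiv ℝ w) := hw.fderiv_right (by simp)
  have hd2 : ∀ x, HasFDerivAt (fderiv ℝ w) (fderiv ℝ (fderiv ℝ w) x) x := fun x =>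
    ((hw1.differentiable (by simp)) x).hasFDerivAt
  have hl : ∀ s : ℝ, HasDerivAt (fun s : ℝ => x + s • (y - x)) (y - x) s := fun s => by
    have := ((hasDerivAt_id s).smul_const (y - x)).const_add x
    simpa using this
  have e1 : ∀ s : ℝ, HasDerivAt (fun s : ℝ => w (x + s • (y - x)))
      (fderiv ℝ w (x + s • (y - x)) (y - x)) s := fun s => (hd1 _).comp_hasDerivAt s (hl s)
  have e2 : ∀ s : ℝ, HasDerivAt (fun s : ℝ => fderiv ℝ w (x + s • (y - x)) (y - x))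
      (fderiv ℝ (fderiv ℝ w) (x + s • (y - x)) (y - x) (y - x)) s := fun s => by
    have h3 := (hd2 (x + s • (y - x))).comp_hasDerivAt s (hl s)
    have h4 := h3.clm_apply (hasDerivAt_const s (y - x))
    simpa using h4
  have hconc : ConcaveOn ℝ (Set.Icc (0 : ℝ) 1) (fun s : ℝ => w (x + s • (y - x))) :=
    concaveOn_of_hasDerivWithinAt2_nonpos (convex_Icc 0 1)
      (fun s _ => (e1 s).continuousAt.continuousWithinAt)
      (fun s _ => (e1 s).hasDerivWithinAt) (fun s _ => (e2 s).hasDerivWithinAt)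
      (fun s _ => h _ _)
  have h5 := hconc.2 (x := 0) (y := 1) (by simp) (by simp) ha hb hab
  simp only [zero_smul, add_zero, one_smul, smul_eq_mul, mul_zero, mul_one, zero_add,
    add_sub_cancel] at h5
  have e6 : x + b • (y - x) = a • x + b • y := by
    have : a = 1 - b := by linarith
    rw [this]; module
  rw [e6] at h5
  exact h5

open Vale.Agent.P262.H847.Reg (Good SIneq)

/-- concavity of a `Good` function -/
lemma Good.concaveOn {k : ℕ} {w : Eu k → ℝ} (hw : Good w) : ConcaveOn ℝ Set.univ w := by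
  obtain ⟨δ, hδ, h⟩ := hw.conc
  refine concaveOn_of_D2 hw.smooth fun x v => (h x v).trans ?_
  have : 0 ≤ δ * ‖v‖ ^ 2 := by positivity
  linarith

/-- **[J-D]** the Gaussian inequality (S') for a `Good` function from the localisation lemma. -/
theorem sineq_of_LOC {k : ℕ} {w : Eu k → ℝ} (hw : Good w)
    (h2 : 1 / 2 ≤ ∫ x, Ehr.Phi (w x) ∂(stdGaussian (Eu k))) (hL : LOC w)
    (al' : Fin k → ℝ) (c : ℝ) (hc0 : 0 < c) (hc1 : c ≤ 1)
    (hal : ∑ i, al' i ^ 2 ≤ 1 / 10240 * c ^ 3) :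
    SIneq (stdGaussian (Eu k)) (fun x => x.ofLp) w al' c := by
  obtain ⟨δ, hδ, hconc'⟩ := hw.conc
  have hconc : ∀ x η, fderiv ℝ (fderiv ℝ w) x η η ≤ -(δ * ‖η‖ ^ 2) := fun x η => by
    have := hconc' x η
    linarith
  have hwc : Continuous w := hw.smooth.continuous
  haveI := isFiniteMeasure_mw hwc
  -- the vectors
  obtain ⟨a, ha⟩ : ∃ a : Fin k → Eu k, ∀ i, a i = EuclideanSpace.single i (al' i) := ⟨_, fun _ => rfl⟩
  have hin : ∀ i (x : Eu k), ⟪a i, x⟫_ℝ = al' i * x.ofLp i := fun i x => by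
    rw [ha, EuclideanSpace.inner_single_left]
    simp
  have hnorm : ∀ i, ‖a i‖ ^ 2 = al' i ^ 2 := fun i => by
    rw [ha, EuclideanSpace.norm_single, Real.norm_eq_abs, sq_abs]
  have hsum : ∑ i, ‖a i‖ ^ 2 = ∑ i, al' i ^ 2 := Finset.sum_congr rfl fun i _ => hnorm i
  have hsum1 : ∑ i, ‖a i‖ ^ 2 ≤ 1 := by
    rw [hsum]
    have : c ^ 3 ≤ 1 := pow_le_one₀ hc0.le hc1
    linarith
  have hA : ∀ x : Eu k, ∑ j, ⟪a j, x⟫_ℝ ^ 2 ≤ ‖x‖ ^ 2 := fun x => by
    calc ∑ j, ⟪a j, x⟫_ℝ ^ 2 ≤ (∑ j, ‖a j‖ ^ 2) * ‖x‖ ^ 2 := sum_inner_sq_le a x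
      _ ≤ 1 * ‖x‖ ^ 2 := mul_le_mul_of_nonneg_right hsum1 (sq_nonneg _)
      _ = ‖x‖ ^ 2 := one_mul _
  have hhalf : 1 / 2 ≤ ∫ g, Ehr.Phi (w (WithLp.toLp 2 g)) ∂(Ehr.gam k) := by
    rw [← int_std_eq_gam (fun x => Ehr.Phi (w x))]; exact h2
  have hSC : ∀ v : Eu k, ∀ b : Eu k → ℝ, ContDiff ℝ ∞ b → HasCompactSupport b →
      2 * ∫ x, ⟪v, x⟫_ℝ * b x ∂(mw w)
        ≤ ∫ x, (w x * b x ^ 2 + ⟪Pinv w x (∇ b x), ∇ b x⟫_ℝ) ∂(mw w)
          + Real.sqrt (2 * Real.pi) * ∫ x, Ehr.Phi (w x) * (‖v‖ ^ 2 - ⟪v, x⟫_ℝ ^ 2) * gw x := by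
    intro v b hb hcb
    have h := JC.SC (JC.dat_canonical hδ hw.smooth hb hcb hconc) v hhalf
    rw [integral_mw hwc, integral_mw hwc]
    simp only [energy_eq_qf]
    exact h
  have main := stepFive (mw w) hwc (integrable_w_mw hwc) (integrable_norm_mw hwc) (Pinv w)
    (continuous_Pinv hδ hconc hw.smooth) (Pinv_symm hδ hconc hw.smooth) (Pinv_nonneg hδ hconc)
    a (fun j => Real.sqrt (2 * Real.pi) * ∫ x, Ehr.Phi (w x) * (‖a j‖ ^ 2 - ⟪a j, x⟫_ℝ ^ 2) * gw x)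
    (fun j b hb hcb => hSC (a j) b hb hcb)
    (fun b hb hcb => by
      have := hSC 0 b hb hcb
      simpa using this)
    (fun G hG hG1 hG2 η hη => by
      obtain ⟨ξ, h1, h3, h4⟩ := hL k a hA G hG ⟨1, hG1⟩ hG2 η hη
      refine ⟨ξ, h1, h3, ?_⟩
      rw [integral_mw hwc, integral_mw hwc]
      simp only [energy_eq_qf]
      exact h4)
    (lemN_mw hwc (Good.concaveOn hw) h2) hc0 hc1 (by rw [hsum]; linarith)
  -- back to the Gaussian measure
  set s2 : ℝ := (Real.sqrt (2 * Real.pi))⁻¹ with hs2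
  have hs0 : 0 < Real.sqrt (2 * Real.pi) := by positivity
  have hs2' : 0 < s2 := by rw [hs2]; positivity
  have conv : ∀ f : Eu k → ℝ, ∫ x, f x * Ehr.phi (w x) ∂(stdGaussian (Eu k))
      = ck k * s2 * ∫ x, f x ∂(mw w) := fun f => by
    rw [int_std, integral_mw hwc, mul_assoc, ← integral_const_mul s2]
    congr 1
    refine integral_congr_ae (Eventually.of_forall fun x => ?_)
    simp only
    rw [mul_assoc, JC.phi_mul_gw]
    ring
  have c1 : ∫ x, Ehr.phi (w x) ∂(stdGaussian (Eu k)) = ck k * s2 * (mw w).real Set.univ := by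
    have := conv fun _ => 1
    simp only [one_mul, integral_const, smul_eq_mul, mul_one] at this
    exact this
  have c2 : ∫ x : Eu k, Ehr.Phi (w x) * (∑ i, al' i ^ 2 - ∑ i, (al' i * x.ofLp i) ^ 2)
      ∂(stdGaussian (Eu k)) = ck k * s2 * ∑ j, Real.sqrt (2 * Real.pi)
        * ∫ x, Ehr.Phi (w x) * (‖a j‖ ^ 2 - ⟪a j, x⟫_ℝ ^ 2) * gw x := by
    rw [int_std, ← Finset.mul_sum, mul_assoc, ← mul_assoc s2, hs2, inv_mul_cancel₀ hs0.ne', one_mul,
      ← integral_finsetSum _ fun j _ => JC.main_integrable3 hwc (a j)]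
    congr 1
    refine integral_congr_ae (Eventually.of_forall fun x => ?_)
    simp only
    rw [← Finset.sum_mul, ← Finset.mul_sum, Finset.sum_sub_distrib, hsum]
    simp only [hin]
  have hck := ck_pos k
  have hf : 0 < ck k * s2 := by positivity
  unfold SIneq
  rw [conv fun x => √(∑ i, (al' i * x.ofLp i) ^ 2), conv w, c1, c2]
  simp only [hin] at main
  simp only [hin]
  have := mul_le_mul_of_nonneg_left main hf.le
  nlinarith

end Vale.Agent.P262.H161
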