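import Vale.Agent.P262.H853.Final
import Vale.Agent.P262.H161.Asm2

/-! [J-D]: helper853's localisation lemma in the form `LOC`. -/

open scoped BigOperators InnerProductSpace Gradient ContDiff
open Finset InnerProductSpace MeasureTheory

namespace Vale.Agent.P262.H161

open Vale.Agent.P262.H853 (D e Dat Fam)
open Vale.Agent.P262.JC (rho gw qf Pm Vf exists_equiv Pm_symm)
open Vale.Agent.P262.H847.Reg (Good)

variable {k : ℕ}

lemma sum_e (v : Fin k → ℝ) :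
    (∑ j, v j • (e j : EuclideanSpace ℝ (Fin k))) = WithLp.toLp 2 v := by
  ext i
  simp [e, Pi.single_apply, Finset.sum_apply]

lemma norm_toLp_sq (v : Fin k → ℝ) :
    ‖(WithLp.toLp 2 v : EuclideanSpace ℝ (Fin k))‖ ^ 2 = ∑ j, v j ^ 2 := by
  rw [EuclideanSpace.norm_sq_eq]
  simp

lemma sum_D (f : EuclideanSpace ℝ (Fin k) → ℝ) (x : EuclideanSpace ℝ (Fin k)) (v : Fin k → ℝ) :
    ∑ j, D j f x * v j = fderiv ℝ f x (WithLp.toLp 2 v) := by
  rw [← sum_e, map_sum]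
  refine Finset.sum_congr rfl fun j _ => ?_
  rw [map_smul, smul_eq_mul, mul_comm]; rfl

lemma D_D {f : EuclideanSpace ℝ (Fin k) → ℝ} (hf : ContDiff ℝ ∞ f) (i j : Fin k)
    (x : EuclideanSpace ℝ (Fin k)) :
    D i (D j f) x = fderiv ℝ (fderiv ℝ f) x (e i) (e j) := by
  have h2 : DifferentiableAt ℝ (fderiv ℝ f) x :=
    (hf.fderiv_right (m := ∞) (by simp)).differentiable (by simp) x
  show fderiv ℝ (fun y => fderiv ℝ f y (e j)) x (e i) = _
  rw [fderiv_clm_apply h2 (differentiableAt_const _)]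
  simp

lemma sum_D_D {f : EuclideanSpace ℝ (Fin k) → ℝ} (hf : ContDiff ℝ ∞ f)
    (x : EuclideanSpace ℝ (Fin k)) (v : Fin k → ℝ) :
    ∑ i, ∑ j, D i (D j f) x * v i * v j
      = fderiv ℝ (fderiv ℝ f) x (WithLp.toLp 2 v) (WithLp.toLp 2 v) := by
  have h : ∀ i, ∑ j, D i (D j f) x * v i * v j
      = v i * fderiv ℝ (fderiv ℝ f) x (e i) (WithLp.toLp 2 v) := fun i => by
    rw [← sum_e, map_sum, Finset.mul_sum]
    refine Finset.sum_congr rfl fun j _ => ?_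
    rw [map_smul, smul_eq_mul, D_D hf]; ring
  have h2 : fderiv ℝ (fderiv ℝ f) x (WithLp.toLp 2 v)
      = ∑ i, v i • fderiv ℝ (fderiv ℝ f) x (e i) := by
    rw [← sum_e, map_sum]
    refine Finset.sum_congr rfl fun i _ => ?_
    rw [map_smul]
  rw [h2, _root_.sum_apply]
  refine Finset.sum_congr rfl fun i _ => ?_
  rw [h i, smul_apply, smul_eq_mul]

lemma D_eq_gradient (f : EuclideanSpace ℝ (Fin k) → ℝ) (i : Fin k)
    (x : EuclideanSpace ℝ (Fin k)) : D i f x = (∇ f x).ofLp i := by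
  have h : fderiv ℝ f x (e i) = ⟪∇ f x, e i⟫_ℝ := (inner_gradient_left ..).symm
  show fderiv ℝ f x (e i) = _
  rw [h, e, EuclideanSpace.inner_single_right]
  simp

lemma sum_D_sq (f : EuclideanSpace ℝ (Fin k) → ℝ) (x : EuclideanSpace ℝ (Fin k)) :
    ∑ i, D i f x ^ 2 = ‖∇ f x‖ ^ 2 := by
  rw [EuclideanSpace.norm_sq_eq]
  exact Finset.sum_congr rfl fun i _ => by rw [D_eq_gradient, Real.norm_eq_abs, sq_abs]

/-- the linear map `x ↦ (⟨a j, x⟩)_j` -/
noncomputable def Amap {J : ℕ} (a : Fin J → EuclideanSpace ℝ (Fin k)) :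
    EuclideanSpace ℝ (Fin k) →L[ℝ] EuclideanSpace ℝ (Fin J) :=
  LinearMap.toContinuousLinearMap
    { toFun := fun x => WithLp.toLp 2 fun j => ⟪a j, x⟫_ℝ
      map_add' := by intro u v; ext j; simp [inner_add_right]
      map_smul' := by intro c u; ext j; simp [inner_smul_right] }

lemma norm_Amap_sq {J : ℕ} (a : Fin J → EuclideanSpace ℝ (Fin k))
    (x : EuclideanSpace ℝ (Fin k)) : ‖Amap a x‖ ^ 2 = ∑ j, ⟪a j, x⟫_ℝ ^ 2 := by
  show ‖(WithLp.toLp 2 fun j => ⟪a j, x⟫_ℝ : EuclideanSpace ℝ (Fin J))‖ ^ 2 = _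
  rw [norm_toLp_sq]

section dat

variable {w : EuclideanSpace ℝ (Fin k) → ℝ} {δ : ℝ} (hw : ContDiff ℝ ∞ w) (hδ : 0 < δ)
    (hc : ∀ x η, fderiv ℝ (fderiv ℝ w) x η η ≤ -(δ * ‖η‖ ^ 2))
    {J : ℕ} (a : Fin J → EuclideanSpace ℝ (Fin k)) (ha : ∀ x, ∑ j, ⟪a j, x⟫_ℝ ^ 2 ≤ ‖x‖ ^ 2)

/-- the data -/
noncomputable def mkDat : Dat k J where
  w := w
  hw := hw
  δ := δ
  hδ := hδ
  conc := fun x c => by
    have h1 := sum_D_D hw x c
    have h2 := hc x (WithLp.toLp 2 c)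
    rw [norm_toLp_sq, ← h1] at h2
    have h3 : ∑ i, ∑ j, (- D i (D j w) x) * c i * c j = -∑ i, ∑ j, D i (D j w) x * c i * c j := by
      rw [← Finset.sum_neg_distrib]
      refine Finset.sum_congr rfl fun i _ => ?_
      rw [← Finset.sum_neg_distrib]
      exact Finset.sum_congr rfl fun j _ => by ring
    rw [h3]
    linarith
  A := Amap a
  hA := fun x => by
    have h1 := ha x
    rw [← norm_Amap_sq] at h1
    exact le_of_sq_le_sq h1 (norm_nonneg x)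

lemma mkDat_a (x : EuclideanSpace ℝ (Fin k)) : (mkDat hw hδ hc a ha).a x = al w a x := by
  show Real.sqrt (100 + w x ^ 2 + ‖Amap a x‖ ^ 2) = _
  rw [norm_Amap_sq]; rfl

lemma mkDat_rho (x : EuclideanSpace ℝ (Fin k)) : (mkDat hw hδ hc a ha).rho x = rho w x := by
  show Real.exp (-((w x ^ 2 + ‖x‖ ^ 2) / 2)) = Real.exp (-(w x ^ 2 + ‖x‖ ^ 2) / 2)
  congr 1; ring

lemma mkDat_en (ξ : EuclideanSpace ℝ (Fin k) → ℝ) (x : EuclideanSpace ℝ (Fin k)) :
    (mkDat hw hδ hc a ha).en ξ ξ x = 1 / 2 * qf w ξ x := by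
  set S := mkDat hw hδ hc a ha with hS
  obtain ⟨eq, heq⟩ := exists_equiv hδ hc x
  set F : EuclideanSpace ℝ (Fin k) := WithLp.toLp 2 fun j => S.Fl ξ j x with hF
  have h1 : ∀ i, Pm w x F (e i) = (1 / 2 : ℝ) * fderiv ℝ ξ x (e i) := fun i => by
    have h2 := S.P_Fl (ξ := ξ) i x
    have h3 : ∑ j, S.P i j x * S.Fl ξ j x = Pm w x (e i) F := by
      rw [hF, ← sum_e, map_sum]
      refine Finset.sum_congr rfl fun j _ => ?_
      rw [map_smul, smul_eq_mul, mul_comm]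
      congr 1
      show -D i (D j w) x = -fderiv ℝ (fderiv ℝ w) x (e i) (e j)
      rw [D_D hw]
    rw [Pm_symm hw, ← h3, h2]; rfl
  have h2 : Pm w x F = (1 / 2 : ℝ) • fderiv ℝ ξ x := by
    ext v
    have hv : v = ∑ j, v.ofLp j • (e j : EuclideanSpace ℝ (Fin k)) := by
      rw [sum_e]
    rw [hv, map_sum, map_sum]
    refine Finset.sum_congr rfl fun j _ => ?_
    rw [map_smul, map_smul, h1]; simp
  have h3 : F = (1 / 2 : ℝ) • Vf w ξ x := by
    have h4 : (Pm w x).inverse (Pm w x F) = F := by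
      rw [← heq, ContinuousLinearMap.inverse_equiv]
      exact eq.symm_apply_apply F
    rw [← h4, h2, map_smul]; rfl
  have h5 : S.en ξ ξ x = fderiv ℝ ξ x F := by
    rw [hF, ← sum_D]
    exact Finset.sum_congr rfl fun i _ => mul_comm _ _
  rw [h5, h3, map_smul, smul_eq_mul]; rfl

end dat

/-- **The localisation lemma** for every `Good` potential, from a mollifier family. -/
theorem LOC_of_fam (A : Fam k) {w : EuclideanSpace ℝ (Fin k) → ℝ} (hw : Good w) : LOC w := by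
  obtain ⟨δ, hδ, hconc'⟩ := hw.conc
  have hc : ∀ x η, fderiv ℝ (fderiv ℝ w) x η η ≤ -(δ * ‖η‖ ^ 2) := fun x η => by
    have := hconc' x η
    linarith
  intro J a ha G hG hG1 hG2 η hη
  obtain ⟨C, hC⟩ := hG2
  obtain ⟨ξ, hξ, h⟩ := (mkDat hw.smooth hδ hc a ha).loc A (G := G) ⟨hG, hG1⟩
    ⟨C, fun x i => by
      rw [D_eq_gradient, ← Real.norm_eq_abs]
      exact (PiLp.norm_apply_le _ i).trans (hC x)⟩ hη
  refine ⟨ξ, hξ.1, hξ.2, ?_⟩
  unfold Dat.Jf at h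
  simp only [mkDat_a, mkDat_rho, mkDat_en, sum_D_sq] at h
  exact h

end Vale.Agent.P262.H161
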