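import Vale.Agent.P262.Ehr.Comb

/-! Lemma N of the proof of (J): `int_{w<0} |w| phi(w) dg <= 5 int phi(w) dg` for concave `w` with
`g(w >= 0) >= 1/2`, from midpoint concavity (Ehrhard) of the tails. -/

open scoped BigOperators ENNReal
open Finset MeasureTheory Set

namespace Vale.Agent.P262.H161

open Vale.Agent.P262.Ehr

lemma phi_antitone_on : AntitoneOn phi (Ici 0) := by
  apply antitoneOn_of_deriv_nonpos (convex_Ici 0) phi_continuous.continuousOn
  · intro x _
    exact (phi_hasDerivAt x).differentiableAt.differentiableWithinAt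
  · intro x hx
    rw [interior_Ici] at hx
    rw [(phi_hasDerivAt x).deriv]
    have := mul_nonneg (le_of_lt hx) (phi_pos x).le
    linarith

lemma Phi_concaveOn : ConcaveOn ℝ (Ici 0) Phi := by
  apply AntitoneOn.concaveOn_of_deriv (convex_Ici 0) Phi_continuous.continuousOn
  · intro x _
    exact (Phi_hasDerivAt x).differentiableAt.differentiableWithinAt
  · intro x hx y hy hxy
    rw [(Phi_hasDerivAt x).deriv, (Phi_hasDerivAt y).deriv]
    exact phi_antitone_on (interior_subset hx) (interior_subset hy) hxy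

lemma Phi_zero : Phi 0 = 1 / 2 := by
  have h1 : (ProbabilityTheory.gaussianReal 0 1).real (Iic 0)
      = (ProbabilityTheory.gaussianReal 0 1).real (Ici 0) := by
    have hmap : (ProbabilityTheory.gaussianReal 0 1).map (fun x => -x)
        = ProbabilityTheory.gaussianReal 0 1 := by
      rw [ProbabilityTheory.gaussianReal_map_neg]; simp
    have h2 : ((ProbabilityTheory.gaussianReal 0 1).map (fun x => -x)).real (Iic 0)
        = (ProbabilityTheory.gaussianReal 0 1).real (Ici 0) := by
      rw [map_measureReal_apply measurable_neg measurableSet_Iic]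
      congr 1
      ext x; simp
    rw [← h2, hmap]
  have h3 : (ProbabilityTheory.gaussianReal 0 1).real (Iic 0)
      + (ProbabilityTheory.gaussianReal 0 1).real (Ioi 0) = 1 := by
    have := measureReal_add_measureReal_compl (μ := ProbabilityTheory.gaussianReal 0 1)
      (s := Iic (0:ℝ)) measurableSet_Iic
    rw [compl_Iic] at this
    rw [this]; simp
  have h4 : (ProbabilityTheory.gaussianReal 0 1).real (Ioi 0)
      = (ProbabilityTheory.gaussianReal 0 1).real (Ici 0) := by
    haveI : NullSingletonClass (ProbabilityTheory.gaussianReal 0 1) :=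
      ProbabilityTheory.nullSingletonClass_gaussianReal one_ne_zero
    rw [measureReal_def, measureReal_def, measure_congr Ioi_ae_eq_Ici]
  unfold Phi
  linarith

lemma Psi_nonneg {a : ℝ} (h : 1 / 2 ≤ a) (h1 : a < 1) : 0 ≤ Psi a := by
  have h0 : Psi (1 / 2) = 0 := by rw [← Phi_zero, Psi_Phi]
  rw [← h0]
  exact Psi_le_Psi (by norm_num) h h1

/-- above `1/2` the Gaussian mean dominates the arithmetic mean -/
lemma comb_half_ge {a b : ℝ} (ha : 1 / 2 ≤ a) (ha1 : a ≤ 1) (hb : 1 / 2 ≤ b) (hb1 : b ≤ 1) :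
    (a + b) / 2 ≤ comb (1 / 2) a b := by
  rcases lt_or_eq_of_le ha1 with ha1 | ha1
  · rcases lt_or_eq_of_le hb1 with hb1 | hb1
    · rw [comb_mid (by linarith) ha1 (by linarith) hb1]
      have h := Phi_concaveOn.2 (Psi_nonneg ha ha1 : Psi a ∈ Ici (0:ℝ))
        (Psi_nonneg hb hb1 : Psi b ∈ Ici (0:ℝ))
        (by norm_num : (0:ℝ) ≤ 1 / 2) (by norm_num : (0:ℝ) ≤ 1 / 2) (by norm_num)
      simp only [smul_eq_mul] at h
      rw [Phi_Psi (by linarith) ha1, Phi_Psi (by linarith) hb1] at h
      have e : (1 - 1 / 2) * Psi a + 1 / 2 * Psi b = 1 / 2 * Psi a + 1 / 2 * Psi b := by ring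
      rw [e]
      linarith
    · rw [comb_one (by linarith) (by linarith) (Or.inr hb1.ge)]; linarith
  · rw [comb_one (by linarith) (by linarith) (Or.inl ha1.ge)]; linarith

/-- `|u| e^{-u^2/2} <= e^{-1/2} e^{-(j-1)/2}` for `j <= |u|`. -/
lemma abs_mul_exp_le {u : ℝ} {j : ℕ} (hu : (j : ℝ) < u) :
    u * Real.exp (-u ^ 2 / 2) ≤ Real.exp (-1 / 2) * (Real.exp (1 / 2) * Real.exp (-1 / 2) ^ j) := by
  have hj : (0 : ℝ) ≤ j := Nat.cast_nonneg j
  have hu0 : 0 < u := lt_of_le_of_lt hj hu
  have h1 : u ≤ Real.exp (u - 1) := by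
    have := Real.add_one_le_exp (u - 1)
    linarith
  calc u * Real.exp (-u ^ 2 / 2) ≤ Real.exp (u - 1) * Real.exp (-u ^ 2 / 2) :=
        mul_le_mul_of_nonneg_right h1 (Real.exp_pos _).le
    _ = Real.exp (u - 1 + -u ^ 2 / 2) := (Real.exp_add _ _).symm
    _ ≤ Real.exp (-1 / 2 + (1 / 2 + j * (-1 / 2))) := by
        apply Real.exp_le_exp.2
        have h2 : (j : ℝ) - 1 ≤ (u - 1) ^ 2 := by
          rcases Nat.eq_zero_or_pos j with h | h
          · subst h
            have := sq_nonneg (u - 1)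
            push_cast; linarith
          · have h3 : (1 : ℝ) ≤ j := by exact_mod_cast h
            rcases Nat.eq_or_lt_of_le h with h4 | h4
            · have : (j : ℝ) = 1 := by exact_mod_cast h4.symm
              have := sq_nonneg (u - 1)
              linarith
            · have h5 : (2 : ℝ) ≤ j := by exact_mod_cast h4
              nlinarith
        nlinarith
    _ = Real.exp (-1 / 2) * (Real.exp (1 / 2) * Real.exp (-1 / 2) ^ j) := by
        rw [Real.exp_add, Real.exp_add, Real.exp_nat_mul]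

lemma exp_series_le : Real.exp (1 / 2) * (1 - Real.exp (-1 / 2))⁻¹ ≤ 5 := by
  have h1 : Real.exp (1 / 2) < 1.649 := by
    have h := Real.exp_one_lt_d9
    have h2 : Real.exp (1 / 2) ^ 2 = Real.exp 1 := by
      rw [← Real.exp_nat_mul]; norm_num
    by_contra hcon
    push Not at hcon
    nlinarith
  have h3 : Real.exp (-1 / 2) < 0.607 := by
    have h := Real.exp_one_gt_d9
    have h2 : Real.exp (-1 / 2) ^ 2 * Real.exp 1 = 1 := by
      rw [← Real.exp_nat_mul, ← Real.exp_add]; norm_num
    by_contra hcon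
    push Not at hcon
    nlinarith
  have h4 : 0 < 1 - Real.exp (-1 / 2) := by linarith
  rw [← div_eq_mul_inv, div_le_iff₀ h4]
  nlinarith

variable {Ω : Type*} [MeasurableSpace Ω]

theorem lemN (μ : Measure Ω) [IsProbabilityMeasure μ] {w : Ω → ℝ} (hw : Measurable w)
    (h0 : 1 / 2 ≤ μ.real {x | 0 ≤ w x})
    (hmid : ∀ r s : ℝ, comb (1 / 2) (μ.real {x | r ≤ w x}) (μ.real {x | s ≤ w x})
      ≤ μ.real {x | (r + s) / 2 ≤ w x}) :
    ∫ x, max (-w x) 0 * Real.exp (-w x ^ 2 / 2) ∂μ ≤ 5 * ∫ x, Real.exp (-w x ^ 2 / 2) ∂μ := by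
  set T : ℝ → ℝ := fun r => μ.real {x | r ≤ w x} with hT
  have hTanti : Antitone T := fun r s hrs => measureReal_mono (fun x hx => le_trans hrs hx)
  have hT1 : ∀ r, T r ≤ 1 := fun r => measureReal_le_one
  have hTh : ∀ r ≤ 0, 1 / 2 ≤ T r := fun r hr => le_trans h0 (hTanti hr)
  set d : ℕ → ℝ := fun j => T (-(j + 1 : ℝ)) - T (-(j : ℝ)) with hd
  have hdanti : ∀ j : ℕ, d (j + 1) ≤ d j := by
    intro j
    have hj : (0 : ℝ) ≤ j := Nat.cast_nonneg j
    have h1 := comb_half_ge (hTh (-((j : ℝ) + 2)) (by linarith)) (hT1 _)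
      (hTh (-(j : ℝ)) (by linarith)) (hT1 _)
    have h2 := hmid (-((j : ℝ) + 2)) (-(j : ℝ))
    have e : (-((j : ℝ) + 2) + -(j : ℝ)) / 2 = -((j : ℝ) + 1) := by ring
    rw [e] at h2
    have h3 : (T (-((j : ℝ) + 2)) + T (-(j : ℝ))) / 2 ≤ T (-((j : ℝ) + 1)) := le_trans h1 h2
    simp only [hd]
    push_cast
    have e2 : -((j : ℝ) + 1 + 1) = -((j : ℝ) + 2) := by ring
    rw [e2]
    linarith
  have hd0 : ∀ j : ℕ, d j ≤ d 0 := by
    intro j
    induction j with
    | zero => exact le_rfl
    | succ j ih => exact le_trans (hdanti j) ih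
  have hdn : ∀ j : ℕ, 0 ≤ d j := fun j => sub_nonneg.2 (hTanti (by linarith))
  set A : ℕ → Set Ω := fun j => {x | -(j + 1 : ℝ) ≤ w x ∧ w x < -(j : ℝ)} with hA
  have hAm : ∀ j, MeasurableSet (A j) := fun j =>
    (measurableSet_le measurable_const hw).inter (measurableSet_lt hw measurable_const)
  have hAd : ∀ j, μ.real (A j) = d j := by
    intro j
    have : A j = {x | -(j + 1 : ℝ) ≤ w x} \ {x | -(j : ℝ) ≤ w x} := by
      ext x; simp [hA]
    have hsub : {x | -(j : ℝ) ≤ w x} ⊆ {x | -(j + 1 : ℝ) ≤ w x} := by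
      intro x (hx : -(j : ℝ) ≤ w x)
      show -(j + 1 : ℝ) ≤ w x
      linarith
    rw [this, measureReal_sdiff hsub (measurableSet_le measurable_const hw)]
  -- lower bound for the right side
  have hlow : Real.exp (-1 / 2) * d 0 ≤ ∫ x, Real.exp (-w x ^ 2 / 2) ∂μ := by
    have hint : Integrable (fun x => Real.exp (-w x ^ 2 / 2)) μ := by
      refine Integrable.of_bound (C := 1) (by fun_prop) (Filter.Eventually.of_forall fun x => ?_)
      rw [Real.norm_eq_abs, abs_of_pos (Real.exp_pos _), Real.exp_le_one_iff]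
      nlinarith [sq_nonneg (w x)]
    calc Real.exp (-1 / 2) * d 0 = ∫ x, (A 0).indicator (fun _ => Real.exp (-1 / 2)) x ∂μ := by
          rw [integral_indicator (hAm 0), setIntegral_const, hAd 0, smul_eq_mul, mul_comm]
      _ ≤ ∫ x, Real.exp (-w x ^ 2 / 2) ∂μ := by
          apply integral_mono ((integrable_const _).indicator (hAm 0)) hint
          intro x
          simp only [Set.indicator_apply]
          split_ifs with hx
          · simp only [hA, mem_setOf_eq, Nat.cast_zero, neg_zero, zero_add] at hx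
            apply Real.exp_le_exp.2
            nlinarith [hx.1, hx.2]
          · exact (Real.exp_pos _).le
  -- upper bound for the left side
  set q := Real.exp (-1 / 2) with hq
  have hq0 : 0 < q := Real.exp_pos _
  have hq1 : q < 1 := by rw [hq, Real.exp_lt_one_iff]; norm_num
  set c : ℕ → ℝ := fun j => q * (Real.exp (1 / 2) * q ^ j) with hc
  have hc0 : ∀ j, 0 ≤ c j := fun j => by simp only [hc]; positivity
  have hcs : Summable c :=
    ((summable_geometric_of_lt_one hq0.le hq1).mul_left _).mul_left _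
  have hcsum : ∑' j, c j ≤ 5 * q := by
    have e : ∑' j, c j = q * (Real.exp (1 / 2) * (1 - q)⁻¹) := by
      simp only [hc]
      rw [tsum_mul_left, tsum_mul_left, tsum_geometric_of_lt_one hq0.le hq1]
    rw [e, mul_comm 5 q]
    exact mul_le_mul_of_nonneg_left exp_series_le hq0.le
  have hpt : ∀ x, ENNReal.ofReal (max (-w x) 0 * Real.exp (-w x ^ 2 / 2))
      ≤ ∑' j : ℕ, (A j).indicator (fun _ => ENNReal.ofReal (c j)) x := by
    intro x
    rcases le_or_gt 0 (w x) with h | h
    · have : max (-w x) 0 = 0 := max_eq_right (by linarith)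
      rw [this]; simp
    · obtain ⟨j, hj1, hj2⟩ : ∃ j : ℕ, (j : ℝ) < -w x ∧ -w x ≤ j + 1 := by
        have hpos : 0 < -w x := by linarith
        refine ⟨⌈-w x⌉₊ - 1, ?_, ?_⟩
        · have h1 : 0 < ⌈-w x⌉₊ := Nat.ceil_pos.2 hpos
          have h2 : ((⌈-w x⌉₊ - 1 : ℕ) : ℝ) = (⌈-w x⌉₊ : ℝ) - 1 := by
            rw [Nat.cast_sub h1]; simp
          rw [h2]
          have := Nat.ceil_lt_add_one hpos.le
          linarith
        · have h1 : 0 < ⌈-w x⌉₊ := Nat.ceil_pos.2 hpos
          have h2 : ((⌈-w x⌉₊ - 1 : ℕ) : ℝ) = (⌈-w x⌉₊ : ℝ) - 1 := by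
            rw [Nat.cast_sub h1]; simp
          rw [h2]
          have := Nat.le_ceil (-w x)
          linarith
      have hx : x ∈ A j := ⟨by linarith, by linarith⟩
      have h1 : ENNReal.ofReal (max (-w x) 0 * Real.exp (-w x ^ 2 / 2))
          ≤ (A j).indicator (fun _ => ENNReal.ofReal (c j)) x := by
        rw [Set.indicator_of_mem hx]
        apply ENNReal.ofReal_le_ofReal
        rw [max_eq_left (by linarith)]
        have := abs_mul_exp_le hj1
        rw [neg_sq] at this
        exact this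
      exact le_trans h1 (ENNReal.le_tsum j)
  have hL : ∫⁻ x, ENNReal.ofReal (max (-w x) 0 * Real.exp (-w x ^ 2 / 2)) ∂μ
      ≤ ENNReal.ofReal (5 * q * d 0) := by
    calc ∫⁻ x, ENNReal.ofReal (max (-w x) 0 * Real.exp (-w x ^ 2 / 2)) ∂μ
        ≤ ∫⁻ x, ∑' j : ℕ, (A j).indicator (fun _ => ENNReal.ofReal (c j)) x ∂μ :=
          lintegral_mono hpt
      _ = ∑' j : ℕ, ∫⁻ x, (A j).indicator (fun _ => ENNReal.ofReal (c j)) x ∂μ :=
          lintegral_tsum fun j => (measurable_const.indicator (hAm j)).aemeasurable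
      _ = ∑' j : ℕ, ENNReal.ofReal (c j) * μ (A j) := by
          congr 1; ext j
          rw [lintegral_indicator_const (hAm j)]
      _ ≤ ∑' j : ℕ, ENNReal.ofReal (c j * d 0) := by
          apply ENNReal.tsum_le_tsum
          intro j
          rw [ENNReal.ofReal_mul (hc0 j)]
          gcongr
          rw [← ofReal_measureReal (s := A j), hAd j]
          exact ENNReal.ofReal_le_ofReal (hd0 j)
      _ = ENNReal.ofReal (∑' j, c j * d 0) := by
          rw [ENNReal.ofReal_tsum_of_nonneg (fun j => mul_nonneg (hc0 j) (hdn 0)) (hcs.mul_right _)]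
      _ ≤ ENNReal.ofReal (5 * q * d 0) := by
          apply ENNReal.ofReal_le_ofReal
          rw [tsum_mul_right]
          exact mul_le_mul_of_nonneg_right hcsum (hdn 0)
  have hfin : ∫ x, max (-w x) 0 * Real.exp (-w x ^ 2 / 2) ∂μ ≤ 5 * q * d 0 := by
    rw [integral_eq_lintegral_of_nonneg_ae]
    · exact ENNReal.toReal_le_of_le_ofReal (by have := hdn 0; positivity) hL
    · exact Filter.Eventually.of_forall fun x => mul_nonneg (le_max_right _ _) (Real.exp_pos _).le
    · exact (by fun_prop : Measurable fun x => max (-w x) 0 * Real.exp (-w x ^ 2 / 2)).aestronglyMeasurable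
  calc _ ≤ 5 * q * d 0 := hfin
    _ = 5 * (q * d 0) := by ring
    _ ≤ _ := mul_le_mul_of_nonneg_left hlow (by norm_num)

end Vale.Agent.P262.H161
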