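import Vale.Agent.P262.H161.Main
import Vale.Agent.P262.H161.LemN
import Vale.Agent.P262.H889.JC7
import Vale.Agent.P262.H847.SHyp
import Vale.Agent.P262.Ehr.LemE

/-! [J-D], assembly 1: the measure `rho dx`, Lemma N for it, the operator `P⁻¹`. -/

open scoped BigOperators InnerProductSpace Gradient ContDiff
open Finset InnerProductSpace MeasureTheory ProbabilityTheory Filter

namespace Vale.Agent.P262.H161

open Vale.Agent.P262.JC (rho gw qf Pm Vf exists_equiv Pm_symm)

/-- Euclidean space -/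
abbrev Eu (k : ℕ) := EuclideanSpace ℝ (Fin k)

variable {k : ℕ}

lemma int_std_eq_gam (f : Eu k → ℝ) :
    ∫ x, f x ∂(stdGaussian (Eu k)) = ∫ z, f (WithLp.toLp 2 z) ∂(Ehr.gam k) := by
  rw [← map_pi_eq_stdGaussian]
  have e : (MeasurableEquiv.toLp 2 (Fin k → ℝ) : (Fin k → ℝ) → EuclideanSpace ℝ (Fin k))
      = WithLp.toLp 2 := rfl
  rw [← e, integral_map_equiv]

/-- the normalising constant -/
noncomputable def ck (k : ℕ) : ℝ := (Real.sqrt (2 * Real.pi))⁻¹ ^ k

lemma ck_pos (k : ℕ) : 0 < ck k := by unfold ck; positivity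

lemma int_std (f : Eu k → ℝ) :
    ∫ x, f x ∂(stdGaussian (Eu k)) = ck k * ∫ x, f x * gw x := by
  rw [int_std_eq_gam, JC.integral_gam_eq]
  rfl

/-- the measure `rho dx` -/
noncomputable def mw (w : Eu k → ℝ) : Measure (Eu k) :=
  volume.withDensity fun x => ENNReal.ofReal (rho w x)

lemma rho_pos (w : Eu k → ℝ) (x : Eu k) : 0 < rho w x := Real.exp_pos _

lemma continuous_rho {w : Eu k → ℝ} (hw : Continuous w) : Continuous (rho w) := by
  unfold rho; fun_prop

lemma integral_mw {w : Eu k → ℝ} (hw : Continuous w) (f : Eu k → ℝ) :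
    ∫ x, f x ∂(mw w) = ∫ x, f x * rho w x := by
  unfold mw
  rw [integral_withDensity_eq_integral_toReal_smul (continuous_rho hw).measurable.ennreal_ofReal
    (Eventually.of_forall fun _ => ENNReal.ofReal_lt_top)]
  refine integral_congr_ae (Eventually.of_forall fun x => ?_)
  simp only
  rw [ENNReal.toReal_ofReal (rho_pos w x).le, smul_eq_mul, mul_comm]

lemma integrable_mw {w : Eu k → ℝ} (hw : Continuous w) {f : Eu k → ℝ}
    (hf : Integrable fun x => f x * rho w x) : Integrable f (mw w) := by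
  unfold mw
  rw [integrable_withDensity_iff_integrable_smul' (continuous_rho hw).measurable.ennreal_ofReal
    (Eventually.of_forall fun _ => ENNReal.ofReal_lt_top)]
  refine hf.congr (Eventually.of_forall fun x => ?_)
  simp only
  rw [ENNReal.toReal_ofReal (rho_pos w x).le, smul_eq_mul, mul_comm]

lemma isFiniteMeasure_mw {w : Eu k → ℝ} (hw : Continuous w) : IsFiniteMeasure (mw w) := by
  have h := integrable_mw (f := fun _ => (1 : ℝ)) hw (by simpa using JC.rho_integrable hw)
  exact (integrable_const_iff_isFiniteMeasure one_ne_zero).1 h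

lemma rho_le_gw (w : Eu k → ℝ) (x : Eu k) : rho w x ≤ gw x := by
  unfold rho gw
  exact Real.exp_le_exp.2 (by nlinarith [sq_nonneg (w x)])

lemma abs_mul_rho_le (w : Eu k → ℝ) (x : Eu k) : |w x * rho w x| ≤ gw x := by
  have h1 : rho w x = Real.exp (-(w x ^ 2) / 2) * gw x := by
    unfold rho gw; rw [← Real.exp_add]; congr 1; ring
  have hg : 0 < gw x := Real.exp_pos _
  rw [h1, ← mul_assoc, abs_mul, abs_of_pos hg, abs_mul, abs_of_pos (Real.exp_pos _)]
  have h2 : |w x| ≤ Real.exp (w x ^ 2 / 2) := by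
    have := Real.add_one_le_exp (w x ^ 2 / 2)
    nlinarith [sq_nonneg (|w x| - 1), sq_abs (w x)]
  have h3 : |w x| * Real.exp (-(w x ^ 2) / 2) ≤ 1 := by
    rw [neg_div, Real.exp_neg, mul_inv_le_iff₀ (Real.exp_pos _), one_mul]
    exact h2
  nlinarith

lemma integrable_w_mw {w : Eu k → ℝ} (hw : Continuous w) : Integrable w (mw w) := by
  refine integrable_mw hw ?_
  have h1 := JC.quad_integrable (k := k) (F := fun _ => (1 : ℝ)) aestronglyMeasurable_const
    (C := 1) fun x => by
      rw [abs_one]; nlinarith [norm_nonneg x]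
  refine h1.mono' (hw.mul (continuous_rho hw)).aestronglyMeasurable
    (Eventually.of_forall fun x => ?_)
  rw [one_mul]
  exact abs_mul_rho_le w x

lemma integrable_norm_mw {w : Eu k → ℝ} (hw : Continuous w) :
    Integrable (fun x => ‖x‖) (mw w) := by
  refine integrable_mw hw ?_
  have h1 := JC.quad_integrable (k := k) (F := fun x => ‖x‖)
    continuous_norm.aestronglyMeasurable (C := 1) fun x => by
      rw [abs_of_nonneg (norm_nonneg x)]; nlinarith [norm_nonneg x]
  refine h1.mono' (continuous_norm.mul (continuous_rho hw)).aestronglyMeasurable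
    (Eventually.of_forall fun x => ?_)
  rw [Real.norm_eq_abs, abs_of_nonneg (mul_nonneg (norm_nonneg x) (rho_pos w x).le)]
  exact mul_le_mul_of_nonneg_left (rho_le_gw w x) (norm_nonneg x)

/-- Lemma N for the measure `rho dx`, `w` concave with `E Phi(w) ≥ 1/2`. -/
theorem lemN_mw {w : Eu k → ℝ} (hw : Continuous w) (hc : ConcaveOn ℝ Set.univ w)
    (h2 : 1 / 2 ≤ ∫ x, Ehr.Phi (w x) ∂(stdGaussian (Eu k))) :
    ∫ x, max (-w x) 0 ∂(mw w) ≤ 5 * (mw w).real Set.univ := by
  set W : (Fin k → ℝ) → ℝ := fun z => w (WithLp.toLp 2 z) with hW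
  have hWc : Continuous W := hw.comp (PiLp.continuous_toLp 2 _)
  have hWcc : ConcaveOn ℝ Set.univ W := by
    refine ⟨convex_univ, fun x _ y _ a b ha hb hab => ?_⟩
    exact hc.2 (Set.mem_univ (WithLp.toLp 2 x)) (Set.mem_univ (WithLp.toLp 2 y)) ha hb hab
  have h2' : Ehr.Phi 0 ≤ ∫ z, Ehr.Phi (W z) ∂(Ehr.gam k) := by
    rw [Ehr.Phi_zero, ← int_std_eq_gam (fun x => Ehr.Phi (w x))]
    exact h2
  have h0 : 1 / 2 ≤ (Ehr.gam k).real {z | 0 ≤ W z} := by
    have := Ehr.lemE_concave hWcc le_rfl le_rfl h2'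
    rw [Ehr.Phi_zero, neg_zero] at this
    exact this
  have hmid : ∀ r s : ℝ, Ehr.comb (1 / 2) ((Ehr.gam k).real {x | r ≤ W x})
      ((Ehr.gam k).real {x | s ≤ W x}) ≤ (Ehr.gam k).real {x | (r + s) / 2 ≤ W x} := by
    intro r s
    have hA : ∀ r : ℝ, Convex ℝ {x | r ≤ W x} := fun r => by
      have := hWcc.convex_ge r
      simpa using this
    refine (Ehr.ehrhard_sets (hA r) (hA s) (t := 1 / 2) (by norm_num) (by norm_num)).trans ?_
    refine measureReal_mono ?_
    rintro _ ⟨_, ⟨x, hx, rfl⟩, _, ⟨y, hy, rfl⟩, rfl⟩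
    have := hWcc.2 (Set.mem_univ x) (Set.mem_univ y) (by norm_num : (0 : ℝ) ≤ 1 - 1 / 2)
      (by norm_num : (0 : ℝ) ≤ 1 / 2) (by norm_num)
    simp only [Set.mem_ofPred_eq, smul_eq_mul] at hx hy this ⊢
    refine le_trans ?_ this
    linarith
  have key := lemN (Ehr.gam k) hWc.measurable h0 hmid
  -- translate
  have e1 : ∫ z, max (-W z) 0 * Real.exp (-W z ^ 2 / 2) ∂(Ehr.gam k)
      = ck k * ∫ x, max (-w x) 0 ∂(mw w) := by
    rw [integral_mw hw, ← int_std_eq_gam (fun x => max (-w x) 0 * Real.exp (-w x ^ 2 / 2)), int_std]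
    congr 1
    refine integral_congr_ae (Eventually.of_forall fun x => ?_)
    simp only
    unfold rho gw
    rw [mul_assoc, ← Real.exp_add]
    congr 2
    ring
  have e2 : ∫ z, Real.exp (-W z ^ 2 / 2) ∂(Ehr.gam k) = ck k * (mw w).real Set.univ := by
    have e3 : (mw w).real Set.univ = ∫ x, (1 : ℝ) ∂(mw w) := by
      rw [integral_const, smul_eq_mul, mul_one]
    rw [e3, integral_mw hw, ← int_std_eq_gam (fun x => Real.exp (-w x ^ 2 / 2)), int_std]
    congr 1
    refine integral_congr_ae (Eventually.of_forall fun x => ?_)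
    simp only
    unfold rho gw
    rw [one_mul, ← Real.exp_add]
    congr 1
    ring
  rw [e1, e2] at key
  have hk := ck_pos k
  nlinarith

end Vale.Agent.P262.H161
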