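import Vale.Agent.P262.H161.Grad

/-! Step 5 of the proof of `(J)` (abstract form): the cloud inequality from the scalar inequality
`(SC)`, the localisation `(LOC)` and the bound `∫ w_- ≤ 5 ∫ 1` (Lemma N). -/

open scoped BigOperators InnerProductSpace Gradient ContDiff
open Finset InnerProductSpace MeasureTheory

namespace Vale.Agent.P262.H161

section smooth

variable {E : Type*} [NormedAddCommGroup E] [InnerProductSpace ℝ E] [CompleteSpace E]

lemma continuous_gradient {b : E → ℝ} (hb : ContDiff ℝ ∞ b) : Continuous (∇ b) := by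
  have h1 : Continuous (fderiv ℝ b) := hb.continuous_fderiv (by simp)
  exact (toDual ℝ E).symm.continuous.comp h1

lemma hasCompactSupport_gradient {b : E → ℝ} (hb : HasCompactSupport b) :
    HasCompactSupport (∇ b) := by
  have h1 : HasCompactSupport (fderiv ℝ b) := hb.fderiv ℝ
  exact h1.comp_left (g := (toDual ℝ E).symm) (by simp)

lemma hasGradientAt_of_contDiff {b : E → ℝ} (hb : ContDiff ℝ ∞ b) (x : E) :
    HasGradientAt b (∇ b x) x :=
  ((hb.differentiable (by simp)) x).hasGradientAt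

variable {ι : Type*} [Fintype ι]

lemma contDiff_sq2 {B : ι → E → ℝ} (hB : ∀ i, ContDiff ℝ ∞ (B i)) :
    ContDiff ℝ ∞ (fun x => sq2 fun i => B i x) := by
  unfold sq2
  exact ContDiff.sum fun i _ => (hB i).pow 2

lemma contDiff_ret {B : ι → E → ℝ} (hB : ∀ i, ContDiff ℝ ∞ (B i)) (i : ι) :
    ContDiff ℝ ∞ (fun x => ret (fun j => B j x) i) := by
  unfold ret
  refine ContDiff.div (contDiff_const.mul (hB i)) (contDiff_const.add (contDiff_sq2 hB)) ?_
  intro x
  exact (one_add_sq2_pos _).ne'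

lemma hasCompactSupport_ret {B : ι → E → ℝ} (hB : ∀ i, HasCompactSupport (B i)) (i : ι) :
    HasCompactSupport (fun x => ret (fun j => B j x) i) := by
  have : (fun x => ret (fun j => B j x) i)
      = fun x => B i x * (2 / (1 + sq2 fun j => B j x)) := by
    ext x; unfold ret; ring
  rw [this]
  exact (hB i).mul_right

lemma contDiff_aff (A : ι → E) (c : ι → ℝ) (i : ι) : ContDiff ℝ ∞ (fun x => aff A c x i) := by
  unfold aff
  exact (contDiff_const.inner ℝ contDiff_id).add contDiff_const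

lemma contDiff_r0 {A : ι → E} {c : ι → ℝ} (h : ∀ x, 0 < sq2 (aff A c x)) :
    ContDiff ℝ ∞ (r0 A c) := by
  unfold r0
  refine ContDiff.sqrt ?_ fun x => (h x).ne'
  exact contDiff_sq2 (B := fun i x => aff A c x i) fun i => contDiff_aff A c i

lemma contDiff_B0 {A : ι → E} {c : ι → ℝ} (h : ∀ x, 0 < sq2 (aff A c x)) (i : ι) :
    ContDiff ℝ ∞ (B0 A c i) := by
  unfold B0
  exact (contDiff_aff A c i).div (contDiff_r0 h) fun x => (r0_pos (h x)).ne'

lemma abs_B0_le {A : ι → E} {c : ι → ℝ} {x : E} (h : 0 < sq2 (aff A c x)) (i : ι) :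
    |B0 A c i x| ≤ 1 := by
  have h1 : B0 A c i x ^ 2 ≤ sq2 (fun i => B0 A c i x) :=
    Finset.single_le_sum (f := fun i => B0 A c i x ^ 2) (fun i _ => sq_nonneg _)
      (Finset.mem_univ i)
  rw [sq2_B0 h] at h1
  rwa [← sq_le_one_iff_abs_le_one]

lemma gradient_B0 {A : ι → E} {c : ι → ℝ} {x : E} (h : 0 < sq2 (aff A c x)) :
    ∑ i, ‖∇ (B0 A c i) x‖ ^ 2 ≤ (∑ i, ‖A i‖ ^ 2) / r0 A c x ^ 2 := by
  have h1 : ∀ i, ∇ (B0 A c i) x
      = ((r0 A c x)⁻¹ • A i - (aff A c x i * ((r0 A c x) ^ 3)⁻¹) • ∑ j, aff A c x j • A j) :=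
    fun i => (hasGradientAt_B0 h i).gradient
  simp only [h1]
  exact sum_norm_grad_B0_le h

/-- the gradient energy of the retracted field -/
lemma energy_ret_le (M : E →L[ℝ] E) (hM : ∀ u v, ⟪M u, v⟫_ℝ = ⟪u, M v⟫_ℝ)
    (hM0 : ∀ u, 0 ≤ ⟪M u, u⟫_ℝ) {B : ι → E → ℝ} (hB : ∀ i, ContDiff ℝ ∞ (B i)) (x : E) :
    ∑ i, ⟪M (∇ (fun z => ret (fun j => B j z) i) x), ∇ (fun z => ret (fun j => B j z) i) x⟫_ℝ
      ≤ 4 * ∑ i, ⟪M (∇ (B i) x), ∇ (B i) x⟫_ℝ := by
  have h1 : ∀ i, ∇ (fun z => ret (fun j => B j z) i) x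
      = ((2 / (1 + sq2 fun j => B j x)) • ∇ (B i) x
        - (4 / (1 + sq2 fun j => B j x) ^ 2 * B i x) • ∑ j, B j x • ∇ (B j) x) :=
    fun i => (hasGradientAt_ret (fun i => hasGradientAt_of_contDiff (hB i) x) i).gradient
  simp only [h1]
  exact grad_ret_le (M : E →ₗ[ℝ] E) hM hM0 (fun j => B j x) (fun i => ∇ (B i) x)

end smooth


/-! ### the pointwise inequality -/

lemma pw_aux {κ w a e q b v2 : ℝ} (hκ : 0 ≤ κ) (hκ1 : κ ≤ 3 / 8) (he0 : 0 ≤ e)
    (haw : |w| ≤ a) (hq1 : q ≤ 1) (h2 : 1 - q ≤ 3 / 2 * e) (h5 : 1 / 2 * v2 - 4 * e ≤ b)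
    (hb : b ≤ 1) :
    0 ≤ w * (1 - q) + κ * (w * b) + κ * max (-w) 0 - κ / 2 * (max w 0 * v2)
      + 3 / 2 * (a * e) := by
  have ha0 : 0 ≤ a := (abs_nonneg _).trans haw
  rcases le_total 0 w with hw | hw
  · rw [max_eq_right (by linarith : -w ≤ 0), max_eq_left hw, mul_zero, add_zero]
    have e2 : 0 ≤ w * (1 - q) := mul_nonneg hw (by linarith)
    have e3 : κ * (w * (1 / 2 * v2)) ≤ κ * (w * (b + 4 * e)) := by
      apply mul_le_mul_of_nonneg_left _ hκ
      apply mul_le_mul_of_nonneg_left _ hw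
      linarith
    have hwa : w ≤ a := (le_abs_self w).trans haw
    have h6 : w * e ≤ a * e := mul_le_mul_of_nonneg_right hwa he0
    have hwe : 0 ≤ w * e := mul_nonneg hw he0
    have e4 : κ * (w * e) ≤ 3 / 8 * (w * e) := mul_le_mul_of_nonneg_right hκ1 hwe
    linarith
  · rw [max_eq_left (by linarith : 0 ≤ -w), max_eq_right hw]
    have hwa : -w ≤ a := (neg_le_abs w).trans haw
    have e2 : -w * (1 - q) ≤ 3 / 2 * (a * e) := by
      calc -w * (1 - q) ≤ -w * (3 / 2 * e) :=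
            mul_le_mul_of_nonneg_left h2 (by linarith)
        _ ≤ a * (3 / 2 * e) := mul_le_mul_of_nonneg_right hwa (by positivity)
        _ = 3 / 2 * (a * e) := by ring
    have e3 : 0 ≤ κ * (-w * (1 - b)) :=
      mul_nonneg hκ (mul_nonneg (by linarith) (by linarith))
    linarith

lemma pw {J : ℕ} (u y : Option (Fin J) → ℝ) {ε κ w a : ℝ} (hu : u none = ε) (hε : 0 < ε)
    (hε1 : ε ≤ 1) (hκ : 0 ≤ κ) (hκ1 : κ ≤ 3 / 8)
    (ha : Real.sqrt (100 + w ^ 2 + ∑ j, u (some j) ^ 2) = a) :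
    2 * Real.sqrt (∑ j, u (some j) ^ 2) ≤
      (2 * ∑ j, u (some j) * ret y (some j) - w * ∑ j, ret y (some j) ^ 2
        - (1 - κ) * (w * ret y none ^ 2)) + w + 2 * ε + κ * max (-w) 0
        - κ * ε ^ 2 / 2 * (max w 0 / sq2 u)
        + 7 * (a * sq2 fun i => y i - u i / Real.sqrt (sq2 u)) := by
  have hZ0 : 0 ≤ ∑ j, u (some j) ^ 2 := Finset.sum_nonneg fun j _ => sq_nonneg _
  have hsu : sq2 u = ε ^ 2 + ∑ j, u (some j) ^ 2 := by
    unfold sq2; rw [Fintype.sum_option, hu]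
  have hsu0 : 0 < sq2 u := by rw [hsu]; positivity
  set r := Real.sqrt (sq2 u) with hr
  have hr0 : 0 < r := Real.sqrt_pos.2 hsu0
  have hr2 : r ^ 2 = sq2 u := Real.sq_sqrt hsu0.le
  set v : Option (Fin J) → ℝ := fun i => u i / r with hv
  have hv1 : sq2 v = 1 := by
    unfold sq2
    simp only [hv, div_pow]
    rw [← Finset.sum_div, hr2, div_eq_one_iff_eq hsu0.ne']
    rfl
  have ha2 : a ^ 2 = 100 + w ^ 2 + ∑ j, u (some j) ^ 2 := by
    rw [← ha]; exact Real.sq_sqrt (by positivity)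
  have ha0 : 0 ≤ a := by rw [← ha]; exact Real.sqrt_nonneg _
  have har : r ≤ a := by
    apply (sq_le_sq₀ hr0.le ha0).1
    rw [hr2, ha2, hsu]
    have : ε ^ 2 ≤ 1 := by nlinarith
    have := sq_nonneg w
    linarith
  have haw : |w| ≤ a := by
    apply (sq_le_sq₀ (abs_nonneg w) ha0).1
    rw [ha2, sq_abs]; linarith
  have hzr : Real.sqrt (∑ j, u (some j) ^ 2) ≤ r := by
    apply Real.sqrt_le_sqrt
    rw [hsu]; linarith [sq_nonneg ε]
  have he0 : 0 ≤ sq2 fun i => y i - v i := sq2_nonneg _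
  have h2 := one_sub_sq2_ret_le y v hv1
  have h4 := one_sub_dot_ret_le y v hv1
  have h5 := ret_sq_ge y v hv1 none
  have hq1 : sq2 (ret y) ≤ 1 := sq2_ret_le_one y
  have hq : sq2 (ret y) = ret y none ^ 2 + ∑ j, ret y (some j) ^ 2 := by
    unfold sq2; rw [Fintype.sum_option]
  have hb0 : |ret y none| ≤ 1 := abs_ret_le_one y none
  have hb0' : ret y none ^ 2 ≤ 1 := by rwa [sq_le_one_iff_abs_le_one]
  have hb1 : ret y none ≤ 1 := (le_abs_self _).trans hb0
  have hD : r * dot (ret y) v = ε * ret y none + ∑ j, u (some j) * ret y (some j) := by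
    unfold dot
    rw [Fintype.sum_option, mul_add, Finset.mul_sum]
    congr 1
    · simp only [hv, hu]; field_simp
    · refine Finset.sum_congr rfl fun j _ => ?_
      simp only [hv]; field_simp
  have k2 := pw_aux hκ hκ1 he0 haw hq1 h2 h5 hb0'
  have e1 : κ / 2 * (max w 0 * v none ^ 2) = κ * ε ^ 2 / 2 * (max w 0 / sq2 u) := by
    simp only [hv, hu, div_pow, hr2]; field_simp
  rw [e1, hq] at k2
  have h7 : r * (1 - dot (ret y) v) ≤ 11 / 4 * (a * sq2 fun i => y i - v i) := by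
    calc r * (1 - dot (ret y) v) ≤ r * (11 / 4 * sq2 fun i => y i - v i) :=
          mul_le_mul_of_nonneg_left h4 hr0.le
      _ = 11 / 4 * (r * sq2 fun i => y i - v i) := by ring
      _ ≤ 11 / 4 * (a * sq2 fun i => y i - v i) := by
        have := mul_le_mul_of_nonneg_right har he0
        linarith
  have h6 : ε * ret y none ≤ ε := by nlinarith
  have h8 : r - (ε * ret y none + ∑ j, u (some j) * ret y (some j))
      = r * (1 - dot (ret y) v) := by rw [← hD]; ring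
  have key : 2 * Real.sqrt (∑ j, u (some j) ^ 2)
      ≤ 2 * ∑ j, u (some j) * ret y (some j) + 2 * ε
        + 11 / 2 * (a * sq2 fun i => y i - v i) := by linarith
  have k3 : w * (1 - (ret y none ^ 2 + ∑ j, ret y (some j) ^ 2))
      + κ * (w * ret y none ^ 2) = w - w * ∑ j, ret y (some j) ^ 2
        - (1 - κ) * (w * ret y none ^ 2) := by ring
  linarith

end Vale.Agent.P262.H161
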