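import Vale.Agent.P262.H161.Pt

/-! Gradients of the retraction and of the unit field `B0 = (A^T x, eps)/r0`. -/

open scoped BigOperators InnerProductSpace
open Finset InnerProductSpace

namespace Vale.Agent.P262.H161

variable {ι : Type*} [Fintype ι]
variable {E : Type*} [NormedAddCommGroup E] [InnerProductSpace ℝ E] [CompleteSpace E]

lemma hasGradientAt_ret {B : ι → E → ℝ} {g : ι → E} {x : E} (h : ∀ i, HasGradientAt (B i) (g i) x)
    (i : ι) :
    HasGradientAt (fun z => ret (fun j => B j z) i)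
      ((2 / (1 + sq2 fun j => B j x)) • g i
        - (4 / (1 + sq2 fun j => B j x) ^ 2 * B i x) • ∑ j, B j x • g j) x := by
  have hp := one_add_sq2_pos fun j => B j x
  rw [hasGradientAt_iff_hasFDerivAt]
  have h' : ∀ i, HasFDerivAt (B i) (toDual ℝ E (g i)) x := fun i =>
    hasGradientAt_iff_hasFDerivAt.1 (h i)
  have hS : HasFDerivAt (fun z => 1 + sq2 fun j => B j z)
      (∑ j, (2 * B j x) • toDual ℝ E (g j)) x := by
    unfold sq2
    refine HasFDerivAt.const_add 1 ?_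
    refine HasFDerivAt.fun_sum fun j _ => ?_
    have := (h' j).pow 2
    simpa [mul_comm] using this
  have hinv : HasFDerivAt (fun z => (1 + sq2 fun j => B j z)⁻¹)
      (-((1 + sq2 fun j => B j x) ^ 2)⁻¹ • ∑ j, (2 * B j x) • toDual ℝ E (g j)) x := by
    exact (hasDerivAt_inv hp.ne').comp_hasFDerivAt x hS
  have hm := ((h' i).const_mul 2).mul hinv
  have e : (fun z => ret (fun j => B j z) i)
      = fun z => 2 * B i z * (1 + sq2 fun j => B j z)⁻¹ := by
    ext z; simp only [ret, div_eq_mul_inv]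
  rw [e]
  refine hm.congr_fderiv ?_
  ext v
  simp only [ContinuousLinearMap.add_apply, ContinuousLinearMap.smul_apply, smul_eq_mul,
    ContinuousLinearMap.neg_apply, ContinuousLinearMap.sum_apply, toDual_apply_apply,
    inner_sub_left, inner_smul_left, sum_inner, RCLike.conj_to_real]
  have e2 : ∑ j, 2 * B j x * ⟪g j, v⟫_ℝ = 2 * ∑ j, B j x * ⟪g j, v⟫_ℝ := by
    rw [Finset.mul_sum]; refine Finset.sum_congr rfl fun j _ => by ring
  rw [e2]
  field_simp
  ring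

/-- the affine functions `u_i x = <A_i, x> + c_i` -/
noncomputable def aff (A : ι → E) (c : ι → ℝ) (x : E) (i : ι) : ℝ := ⟪A i, x⟫_ℝ + c i

/-- `r0 = |u|` -/
noncomputable def r0 (A : ι → E) (c : ι → ℝ) (x : E) : ℝ := Real.sqrt (sq2 (aff A c x))

/-- the unit field -/
noncomputable def B0 (A : ι → E) (c : ι → ℝ) (i : ι) (x : E) : ℝ := aff A c x i / r0 A c x

lemma r0_sq (A : ι → E) (c : ι → ℝ) (x : E) : r0 A c x ^ 2 = sq2 (aff A c x) :=
  Real.sq_sqrt (sq2_nonneg _)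

lemma r0_pos {A : ι → E} {c : ι → ℝ} {x : E} (h : 0 < sq2 (aff A c x)) : 0 < r0 A c x :=
  Real.sqrt_pos.2 h

lemma sq2_B0 {A : ι → E} {c : ι → ℝ} {x : E} (h : 0 < sq2 (aff A c x)) :
    sq2 (fun i => B0 A c i x) = 1 := by
  have hr := r0_pos h
  have h2 := r0_sq A c x
  unfold sq2 B0
  simp only [div_pow]
  rw [← Finset.sum_div, h2, div_eq_one_iff_eq h.ne']
  rfl

lemma hasGradientAt_aff (A : ι → E) (c : ι → ℝ) (x : E) (i : ι) :
    HasGradientAt (fun z => aff A c z i) (A i) x := by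
  rw [hasGradientAt_iff_hasFDerivAt]
  unfold aff
  exact ((toDual ℝ E (A i)).hasFDerivAt).add_const (c i)

lemma hasGradientAt_B0 {A : ι → E} {c : ι → ℝ} {x : E} (h : 0 < sq2 (aff A c x)) (i : ι) :
    HasGradientAt (B0 A c i)
      ((r0 A c x)⁻¹ • A i - (aff A c x i * ((r0 A c x) ^ 3)⁻¹) • ∑ j, aff A c x j • A j) x := by
  have hr := r0_pos h
  have h' : ∀ i, HasFDerivAt (fun z => aff A c z i) (toDual ℝ E (A i)) x := fun i =>
    hasGradientAt_iff_hasFDerivAt.1 (hasGradientAt_aff A c x i)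
  rw [hasGradientAt_iff_hasFDerivAt]
  have hS : HasFDerivAt (fun z => sq2 (aff A c z))
      (∑ j, (2 * aff A c x j) • toDual ℝ E (A j)) x := by
    unfold sq2
    refine HasFDerivAt.fun_sum fun j _ => ?_
    have := (h' j).pow 2
    simpa [mul_comm] using this
  have hsq : HasFDerivAt (fun z => r0 A c z)
      ((1 / (2 * r0 A c x)) • ∑ j, (2 * aff A c x j) • toDual ℝ E (A j)) x := by
    have := (Real.hasDerivAt_sqrt h.ne').comp_hasFDerivAt x hS
    exact this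
  have hinv : HasFDerivAt (fun z => (r0 A c z)⁻¹)
      (-((r0 A c x) ^ 2)⁻¹ • ((1 / (2 * r0 A c x)) • ∑ j, (2 * aff A c x j) • toDual ℝ E (A j))) x :=
    (hasDerivAt_inv hr.ne').comp_hasFDerivAt x hsq
  have hm := (h' i).mul hinv
  have e : B0 A c i = fun z => aff A c z i * (r0 A c z)⁻¹ := by
    ext z; simp only [B0, div_eq_mul_inv]
  rw [e]
  refine hm.congr_fderiv ?_
  ext v
  simp only [ContinuousLinearMap.add_apply, ContinuousLinearMap.smul_apply, smul_eq_mul,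
    ContinuousLinearMap.neg_apply, ContinuousLinearMap.sum_apply, toDual_apply_apply,
    inner_sub_left, inner_smul_left, sum_inner, RCLike.conj_to_real]
  have e2 : ∑ j, 2 * aff A c x j * ⟪A j, v⟫_ℝ = 2 * ∑ j, aff A c x j * ⟪A j, v⟫_ℝ := by
    rw [Finset.mul_sum]; refine Finset.sum_congr rfl fun j _ => by ring
  rw [e2]
  field_simp
  ring

/-- the sum of the squares of the gradients of `B0` -/
lemma sum_norm_grad_B0_le {A : ι → E} {c : ι → ℝ} {x : E} (h : 0 < sq2 (aff A c x)) :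
    ∑ i, ‖(r0 A c x)⁻¹ • A i - (aff A c x i * ((r0 A c x) ^ 3)⁻¹) • ∑ j, aff A c x j • A j‖ ^ 2
      ≤ (∑ i, ‖A i‖ ^ 2) / r0 A c x ^ 2 := by
  have hr := r0_pos h
  have h2 := r0_sq A c x
  set s := ∑ j, aff A c x j • A j with hs
  set r := r0 A c x with hrdef
  have e1 : ∀ i, ‖r⁻¹ • A i - (aff A c x i * (r ^ 3)⁻¹) • s‖ ^ 2
      = (r ^ 2)⁻¹ * ‖A i‖ ^ 2 - 2 * (r ^ 4)⁻¹ * (aff A c x i * ⟪s, A i⟫_ℝ)
        + (r ^ 6)⁻¹ * ‖s‖ ^ 2 * aff A c x i ^ 2 := by
    intro i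
    rw [norm_sub_sq_real, norm_smul, norm_smul, inner_smul_left, inner_smul_right,
      RCLike.conj_to_real, mul_pow, mul_pow, Real.norm_eq_abs, Real.norm_eq_abs, sq_abs, sq_abs,
      real_inner_comm]
    field_simp
  have e2 : ∑ i, aff A c x i * ⟪s, A i⟫_ℝ = ‖s‖ ^ 2 := by
    have : ⟪s, ∑ i, aff A c x i • A i⟫_ℝ = ‖s‖ ^ 2 := by
      rw [← hs, real_inner_self_eq_norm_sq]
    rw [← this, inner_sum]
    refine Finset.sum_congr rfl fun i _ => by rw [inner_smul_right]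
  rw [Finset.sum_congr rfl fun i _ => e1 i, Finset.sum_add_distrib, Finset.sum_sub_distrib,
    ← Finset.mul_sum, ← Finset.mul_sum, e2, ← Finset.mul_sum]
  have e3 : ∑ i, aff A c x i ^ 2 = r ^ 2 := h2.symm
  rw [e3]
  have e4 : (r ^ 2)⁻¹ * ∑ i, ‖A i‖ ^ 2 - 2 * (r ^ 4)⁻¹ * ‖s‖ ^ 2 + (r ^ 6)⁻¹ * ‖s‖ ^ 2 * r ^ 2
      = (∑ i, ‖A i‖ ^ 2) / r ^ 2 - (r ^ 4)⁻¹ * ‖s‖ ^ 2 := by
    field_simp
    ring
  rw [e4]
  have : 0 ≤ (r ^ 4)⁻¹ * ‖s‖ ^ 2 := by positivity
  linarith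

end Vale.Agent.P262.H161
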