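import Vale.Agent.P262.H853.LocMain
import Vale.Agent.P262.H161.Adapt

/-! [J-D]: the localisation lemma `LOC w` for every `Good` potential, in every dimension. -/

namespace Vale.Agent.P262.H161

open Vale.Agent.P262.H847.Reg (Good)

/-- **The localisation lemma**, for every `Good` potential, in every dimension. -/
theorem loc_all (k : ℕ) (w : EuclideanSpace ℝ (Fin k) → ℝ) (hw : Good w) : LOC w :=
  LOC_of_fam (Vale.Agent.P262.H853.fam k) hw

end Vale.Agent.P262.H161
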