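import Vale.Agent.P262.H161.Five

/-! Step 5 of the proof of `(J)` (abstract form): the cloud inequality from the scalar inequality
`(SC)`, the localisation `(LOC)` and the bound `∫ w_- ≤ 5 ∫ 1` (Lemma N). -/

open scoped BigOperators InnerProductSpace Gradient ContDiff
open Finset InnerProductSpace MeasureTheory

namespace Vale.Agent.P262.H161

variable {E : Type*} [NormedAddCommGroup E] [InnerProductSpace ℝ E] [FiniteDimensional ℝ E]
  [MeasurableSpace E] [BorelSpace E]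

/-- the weight -/
noncomputable def al {J : ℕ} (w : E → ℝ) (a : Fin J → E) (x : E) : ℝ :=
  Real.sqrt (100 + w x ^ 2 + ∑ j, ⟪a j, x⟫_ℝ ^ 2)

lemma al_nonneg {J : ℕ} (w : E → ℝ) (a : Fin J → E) (x : E) : 0 ≤ al w a x := Real.sqrt_nonneg _

lemma sum_inner_sq_le {J : ℕ} (a : Fin J → E) (x : E) :
    ∑ j, ⟪a j, x⟫_ℝ ^ 2 ≤ (∑ j, ‖a j‖ ^ 2) * ‖x‖ ^ 2 := by
  rw [Finset.sum_mul]
  refine Finset.sum_le_sum fun j _ => ?_
  rw [← mul_pow, ← sq_abs (⟪a j, x⟫_ℝ)]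
  exact pow_le_pow_left₀ (abs_nonneg _) (abs_real_inner_le_norm _ _) 2

lemma al_le {J : ℕ} (w : E → ℝ) (a : Fin J → E) (x : E) :
    al w a x ≤ 10 + |w x| + Real.sqrt (∑ j, ⟪a j, x⟫_ℝ ^ 2) := by
  have hz := Real.sqrt_nonneg (∑ j, ⟪a j, x⟫_ℝ ^ 2)
  have hz2 := Real.sq_sqrt (Finset.sum_nonneg fun j _ => sq_nonneg (⟪a j, x⟫_ℝ) :
    0 ≤ ∑ j, ⟪a j, x⟫_ℝ ^ 2)
  have hw := abs_nonneg (w x)
  unfold al
  rw [Real.sqrt_le_left (by positivity)]
  have := sq_abs (w x)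
  nlinarith [mul_nonneg hw hz]

lemma continuous_al {J : ℕ} {w : E → ℝ} (hw : Continuous w) (a : Fin J → E) :
    Continuous (al w a) := by
  unfold al
  fun_prop

lemma integrable_z {J : ℕ} {μ : Measure E} (hxi : Integrable (fun x => ‖x‖) μ) (a : Fin J → E) :
    Integrable (fun x => Real.sqrt (∑ j, ⟪a j, x⟫_ℝ ^ 2)) μ := by
  refine (hxi.const_mul (Real.sqrt (∑ j, ‖a j‖ ^ 2))).mono' (by fun_prop) ?_
  filter_upwards with x
  rw [Real.norm_of_nonneg (Real.sqrt_nonneg _)]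
  calc Real.sqrt (∑ j, ⟪a j, x⟫_ℝ ^ 2)
      ≤ Real.sqrt ((∑ j, ‖a j‖ ^ 2) * ‖x‖ ^ 2) := Real.sqrt_le_sqrt (sum_inner_sq_le a x)
    _ = Real.sqrt (∑ j, ‖a j‖ ^ 2) * ‖x‖ := by
      rw [Real.sqrt_mul (by positivity), Real.sqrt_sq (norm_nonneg x)]

lemma integrable_al {J : ℕ} {μ : Measure E} [IsFiniteMeasure μ] {w : E → ℝ} (hw : Continuous w)
    (hwi : Integrable w μ) (hxi : Integrable (fun x => ‖x‖) μ) (a : Fin J → E) :
    Integrable (al w a) μ := by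
  refine (((integrable_const (10 : ℝ)).add hwi.abs).add (integrable_z hxi a)).mono'
    (continuous_al hw a).aestronglyMeasurable ?_
  filter_upwards with x
  rw [Real.norm_of_nonneg (al_nonneg _ _ _)]
  exact al_le w a x

/-- a continuous bounded function times an integrable one -/
lemma integrable_mul_bdd {μ : Measure E} {f g : E → ℝ} {C : ℝ} (hf : Integrable f μ)
    (hg : Continuous g) (hC : ∀ x, |g x| ≤ C) : Integrable (fun x => f x * g x) μ := by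
  refine hf.mul_bdd (c := C) hg.aestronglyMeasurable ?_
  filter_upwards with x
  exact hC x

section energy

variable {Pinv : E → E →L[ℝ] E}

lemma integrable_energy {μ : Measure E} [IsFiniteMeasure μ] (hPc : Continuous Pinv) {b : E → ℝ}
    (hb : ContDiff ℝ ∞ b) (hbc : HasCompactSupport b) :
    Integrable (fun x => ⟪Pinv x (∇ b x), ∇ b x⟫_ℝ) μ := by
  have h1 : Continuous fun x => ⟪Pinv x (∇ b x), ∇ b x⟫_ℝ := by
    have := continuous_gradient hb
    exact (hPc.clm_apply this).inner this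
  refine h1.integrable_of_hasCompactSupport ?_
  exact (hasCompactSupport_gradient hbc).mono fun x hx => by
    intro h0
    apply hx
    simp [h0]

end energy

/-- **Step 5** of the proof of `(J)`: from the scalar inequalities `SC`, `SC0`, the localisation
`LOC` and Lemma N. -/
theorem stepFive {J : ℕ} (μ : Measure E) [IsFiniteMeasure μ] {w : E → ℝ} (hw : Continuous w)
    (hwi : Integrable w μ) (hxi : Integrable (fun x => ‖x‖) μ)
    (Pinv : E → E →L[ℝ] E) (hPc : Continuous Pinv)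
    (hPs : ∀ x u v, ⟪Pinv x u, v⟫_ℝ = ⟪u, Pinv x v⟫_ℝ) (hP0 : ∀ x u, 0 ≤ ⟪Pinv x u, u⟫_ℝ)
    (a : Fin J → E) (R : Fin J → ℝ)
    (SC : ∀ j, ∀ b : E → ℝ, ContDiff ℝ ∞ b → HasCompactSupport b →
      2 * ∫ x, ⟪a j, x⟫_ℝ * b x ∂μ ≤ ∫ x, (w x * b x ^ 2 + ⟪Pinv x (∇ b x), ∇ b x⟫_ℝ) ∂μ + R j)
    (SC0 : ∀ b : E → ℝ, ContDiff ℝ ∞ b → HasCompactSupport b →
      0 ≤ ∫ x, (w x * b x ^ 2 + ⟪Pinv x (∇ b x), ∇ b x⟫_ℝ) ∂μ)
    (LOC : ∀ G : E → ℝ, ContDiff ℝ ∞ G → (∀ x, |G x| ≤ 1) → (∃ C : ℝ, ∀ x, ‖∇ G x‖ ≤ C) →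
      ∀ η : ℝ, 0 < η → ∃ ξ : E → ℝ, ContDiff ℝ ∞ ξ ∧ HasCompactSupport ξ ∧
        ∫ x, (al w a x * (ξ x - G x) ^ 2 + 1 / 2 * ⟪Pinv x (∇ ξ x), ∇ ξ x⟫_ℝ) ∂μ
          ≤ 2 * ∫ x, al w a x * ‖∇ G x‖ ^ 2 ∂μ + η)
    (LN : ∫ x, max (-w x) 0 ∂μ ≤ 5 * μ.real Set.univ)
    {c1 : ℝ} (hc : 0 < c1) (hc1 : c1 ≤ 1) (hc2 : ∑ j, ‖a j‖ ^ 2 ≤ c1 ^ 3 / 10240) :
    2 * ∫ x, Real.sqrt (∑ j, ⟪a j, x⟫_ℝ ^ 2) ∂μ
      ≤ ∫ x, w x ∂μ + ∑ j, R j + 2 * c1 * μ.real Set.univ := by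
  -- parameters
  obtain ⟨ε, hεdef⟩ : ∃ ε, ε = c1 / 4 := ⟨_, rfl⟩
  obtain ⟨κ, hκdef⟩ : ∃ κ, κ = c1 / 20 := ⟨_, rfl⟩
  have hε : 0 < ε := by rw [hεdef]; positivity
  have hε1 : ε ≤ 1 := by rw [hεdef]; linarith
  have hκ : 0 ≤ κ := by rw [hκdef]; positivity
  have hκ1 : κ ≤ 3 / 8 := by rw [hκdef]; linarith
  set m := μ.real Set.univ with hm
  have hm0 : 0 ≤ m := measureReal_nonneg
  -- the affine maps
  obtain ⟨A, hA0, hA⟩ : ∃ A : Option (Fin J) → E, A none = 0 ∧ ∀ j, A (some j) = a j :=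
    ⟨fun i => i.elim 0 a, rfl, fun _ => rfl⟩
  obtain ⟨c, hc0, hcj⟩ : ∃ c : Option (Fin J) → ℝ, c none = ε ∧ ∀ j, c (some j) = 0 :=
    ⟨fun i => i.elim ε fun _ => 0, rfl, fun _ => rfl⟩
  have hu0 : ∀ x, aff A c x none = ε := fun x => by simp [aff, hA0, hc0]
  have huj : ∀ x j, aff A c x (some j) = ⟪a j, x⟫_ℝ := fun x j => by simp [aff, hA, hcj]
  have hsq : ∀ x, sq2 (aff A c x) = ε ^ 2 + ∑ j, ⟪a j, x⟫_ℝ ^ 2 := fun x => by
    unfold sq2; rw [Fintype.sum_option, hu0]; simp only [huj]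
  have hsqε : ∀ x, ε ^ 2 ≤ sq2 (aff A c x) := fun x => by
    rw [hsq]; linarith [Finset.sum_nonneg fun (j : Fin J) (_ : j ∈ Finset.univ) =>
      sq_nonneg (⟪a j, x⟫_ℝ)]
  have hpos : ∀ x, 0 < sq2 (aff A c x) := fun x => lt_of_lt_of_le (by positivity) (hsqε x)
  have hAsum : ∑ i, ‖A i‖ ^ 2 = ∑ j, ‖a j‖ ^ 2 := by
    rw [Fintype.sum_option, hA0]; simp [hA]
  have hG1 : ∀ i, ContDiff ℝ ∞ (B0 A c i) := contDiff_B0 hpos
  have hG2 : ∀ i x, |B0 A c i x| ≤ 1 := fun i x => abs_B0_le (hpos x) i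
  have hG3' : ∀ x, ∑ i, ‖∇ (B0 A c i) x‖ ^ 2 ≤ (∑ j, ‖a j‖ ^ 2) / sq2 (aff A c x) := fun x => by
    have := gradient_B0 (hpos x)
    rwa [hAsum, r0_sq] at this
  have hc2' : ∑ j, ‖a j‖ ^ 2 ≤ 1 := by
    have : c1 ^ 3 ≤ 1 := pow_le_one₀ hc.le hc1
    linarith
  have hc20 : 0 ≤ ∑ j, ‖a j‖ ^ 2 := by positivity
  have hG3 : ∀ i x, ‖∇ (B0 A c i) x‖ ^ 2 ≤ 1 / ε ^ 2 := fun i x => by
    calc ‖∇ (B0 A c i) x‖ ^ 2 ≤ ∑ i, ‖∇ (B0 A c i) x‖ ^ 2 :=
          Finset.single_le_sum (f := fun i => ‖∇ (B0 A c i) x‖ ^ 2) (fun i _ => sq_nonneg _)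
            (Finset.mem_univ i)
      _ ≤ (∑ j, ‖a j‖ ^ 2) / sq2 (aff A c x) := hG3' x
      _ ≤ 1 / ε ^ 2 := div_le_div₀ (by norm_num) hc2' (by positivity) (hsqε x)
  have hG4 : ∀ i, ∃ C : ℝ, ∀ x, ‖∇ (B0 A c i) x‖ ≤ C := fun i => by
    refine ⟨1 / ε, fun x => ?_⟩
    have h1 := hG3 i x
    rw [show (1 : ℝ) / ε ^ 2 = (1 / ε) ^ 2 by ring] at h1
    exact (sq_le_sq₀ (norm_nonneg _) (by positivity)).1 h1
  -- it suffices to prove it with an error `η`
  refine le_of_forall_pos_le_add fun η hη => ?_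
  have hη' : 0 < η / (8 * (J + 1)) := by positivity
  choose B hB1 hB2 hB3 using fun i => LOC (B0 A c i) (hG1 i) (hG2 i) (hG4 i) _ hη'
  obtain ⟨b, hbdef⟩ : ∃ b : Option (Fin J) → E → ℝ, b = fun i x => ret (fun j => B j x) i :=
    ⟨_, rfl⟩
  have hb1 : ∀ i, ContDiff ℝ ∞ (b i) := by rw [hbdef]; exact contDiff_ret hB1
  have hb2 : ∀ i, HasCompactSupport (b i) := by rw [hbdef]; exact hasCompactSupport_ret hB2
  have hbb : ∀ i x, |b i x| ≤ 1 := by rw [hbdef]; exact fun i x => abs_ret_le_one _ i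
  -- integrability
  have iQ : ∀ i, Integrable (fun x => ⟪Pinv x (∇ (b i) x), ∇ (b i) x⟫_ℝ) μ :=
    fun i => integrable_energy hPc (hb1 i) (hb2 i)
  have iQB : ∀ i, Integrable (fun x => ⟪Pinv x (∇ (B i) x), ∇ (B i) x⟫_ℝ) μ :=
    fun i => integrable_energy hPc (hB1 i) (hB2 i)
  have iwb : ∀ i, Integrable (fun x => w x * b i x ^ 2) μ := fun i =>
    integrable_mul_bdd hwi ((hb1 i).continuous.pow 2) (C := 1) fun x => by
      rw [abs_pow]; exact pow_le_one₀ (abs_nonneg _) (hbb i x)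
  have iab : ∀ j, Integrable (fun x => ⟪a j, x⟫_ℝ * b (some j) x) μ := fun j => by
    refine integrable_mul_bdd ?_ (hb1 _).continuous (C := 1) (hbb _)
    refine (hxi.const_mul ‖a j‖).mono' (by fun_prop) ?_
    filter_upwards with x
    exact abs_real_inner_le_norm _ _
  have ial : Integrable (al w a) μ := integrable_al hw hwi hxi a
  have iwm : Integrable (fun x => max (-w x) 0) μ := hwi.neg.pos_part
  have iwp : Integrable (fun x => max (w x) 0) μ := hwi.pos_part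
  have icsq : Continuous fun x => sq2 (aff A c x) := (contDiff_sq2 (B := fun i x => aff A c x i)
    fun i => contDiff_aff A c i).continuous
  have iW : Integrable (fun x => max (w x) 0 / sq2 (aff A c x)) μ := by
    simp only [div_eq_mul_inv]
    refine integrable_mul_bdd iwp (icsq.inv₀ fun x => (hpos x).ne') (C := (ε ^ 2)⁻¹) fun x => ?_
    rw [abs_of_nonneg (by have := hpos x; positivity)]
    exact inv_anti₀ (by positivity) (hsqε x)
  have iD : ∀ i, Integrable (fun x => al w a x * (B i x - B0 A c i x) ^ 2) μ := fun i => by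
    obtain ⟨C, hC⟩ := (hB2 i).exists_bound_of_continuous (hB1 i).continuous
    have hc : Continuous fun x => (B i x - B0 A c i x) ^ 2 :=
      ((hB1 i).continuous.sub (hG1 i).continuous).pow 2
    refine integrable_mul_bdd ial hc (C := (C + 1) ^ 2) fun x => ?_
    rw [abs_pow]
    refine pow_le_pow_left₀ (abs_nonneg _) ?_ 2
    exact (abs_sub _ _).trans (add_le_add (hC x) (hG2 i x))
  have iG : ∀ i, Integrable (fun x => al w a x * ‖∇ (B0 A c i) x‖ ^ 2) μ := fun i => by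
    refine integrable_mul_bdd ial ((continuous_gradient (hG1 i)).norm.pow 2)
      (C := 1 / ε ^ 2) fun x => ?_
    rw [abs_of_nonneg (by positivity)]
    exact hG3 i x
  have iz := integrable_z hxi a
  set N := ∫ x, max (-w x) 0 ∂μ with hN
  set W := ∫ x, max (w x) 0 / sq2 (aff A c x) ∂μ with hW
  have hN0 : 0 ≤ N := integral_nonneg fun x => le_max_right _ _
  have hW0 : 0 ≤ W := integral_nonneg fun x => div_nonneg (le_max_right _ _) (hpos x).le
  -- (a)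
  have iF1 : Integrable (fun x => 2 * ∑ j, ⟪a j, x⟫_ℝ * b (some j) x) μ :=
    (integrable_finsetSum _ fun j _ => iab j).const_mul 2
  have iF2 : Integrable (fun x => ∑ j, w x * b (some j) x ^ 2) μ :=
    integrable_finsetSum _ fun j _ => iwb (some j)
  have iF3 : Integrable (fun x => (1 - κ) * (w x * b none x ^ 2)) μ := (iwb none).const_mul _
  have sa : ∫ x, (2 * ∑ j, ⟪a j, x⟫_ℝ * b (some j) x - ∑ j, w x * b (some j) x ^ 2
      - (1 - κ) * (w x * b none x ^ 2)) ∂μ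
      ≤ ∑ i, ∫ x, ⟪Pinv x (∇ (b i) x), ∇ (b i) x⟫_ℝ ∂μ + ∑ j, R j := by
    have g1 := integral_sub (iF1.sub iF2) iF3
    have g2 := integral_sub iF1 iF2
    simp only [Pi.sub_apply] at g1 g2
    rw [g1, g2, integral_const_mul,
      integral_finsetSum _ fun j _ => iab j, integral_finsetSum _ fun j _ => iwb (some j),
      integral_const_mul, Fintype.sum_option]
    have h1 : ∀ j, 2 * ∫ x, ⟪a j, x⟫_ℝ * b (some j) x ∂μ - ∫ x, w x * b (some j) x ^ 2 ∂μ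
        ≤ ∫ x, ⟪Pinv x (∇ (b (some j)) x), ∇ (b (some j)) x⟫_ℝ ∂μ + R j := fun j => by
      have := SC j (b (some j)) (hb1 _) (hb2 _)
      rw [integral_add (iwb _) (iQ _)] at this
      linarith
    have h2 := SC0 (b none) (hb1 _) (hb2 _)
    rw [integral_add (iwb _) (iQ _)] at h2
    have h3 : 0 ≤ ∫ x, ⟪Pinv x (∇ (b none) x), ∇ (b none) x⟫_ℝ ∂μ :=
      integral_nonneg fun x => hP0 x _
    have h4 := Finset.sum_le_sum fun j (_ : j ∈ Finset.univ) => h1 j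
    rw [Finset.sum_sub_distrib, Finset.sum_add_distrib, ← Finset.mul_sum] at h4
    have h5 : -(1 - κ) * ∫ x, w x * b none x ^ 2 ∂μ
        ≤ ∫ x, ⟪Pinv x (∇ (b none) x), ∇ (b none) x⟫_ℝ ∂μ := by
      have h6 : 0 ≤ (1 - κ) * (∫ x, w x * b none x ^ 2 ∂μ
        + ∫ x, ⟪Pinv x (∇ (b none) x), ∇ (b none) x⟫_ℝ ∂μ) := mul_nonneg (by linarith) h2
      have h7 : 0 ≤ κ * ∫ x, ⟪Pinv x (∇ (b none) x), ∇ (b none) x⟫_ℝ ∂μ := mul_nonneg hκ h3
      linarith
    linarith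
  -- (b)
  have sb : ∑ i, ∫ x, ⟪Pinv x (∇ (b i) x), ∇ (b i) x⟫_ℝ ∂μ
      ≤ 4 * ∑ i, ∫ x, ⟪Pinv x (∇ (B i) x), ∇ (B i) x⟫_ℝ ∂μ := by
    rw [← integral_finsetSum _ fun i _ => iQ i, ← integral_finsetSum _ fun i _ => iQB i,
      ← integral_const_mul]
    refine integral_mono (integrable_finsetSum _ fun i _ => iQ i)
      ((integrable_finsetSum _ fun i _ => iQB i).const_mul 4) fun x => ?_
    have := energy_ret_le (Pinv x) (hPs x) (hP0 x) hB1 x
    rw [hbdef]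
    exact this
  -- (c)
  have sc : ∑ i, ∫ x, al w a x * (B i x - B0 A c i x) ^ 2 ∂μ
      + 1 / 2 * ∑ i, ∫ x, ⟪Pinv x (∇ (B i) x), ∇ (B i) x⟫_ℝ ∂μ
      ≤ 2 * ∑ i, ∫ x, al w a x * ‖∇ (B0 A c i) x‖ ^ 2 ∂μ + η / 8 := by
    have h1 : ∀ i, ∫ x, al w a x * (B i x - B0 A c i x) ^ 2 ∂μ
        + 1 / 2 * ∫ x, ⟪Pinv x (∇ (B i) x), ∇ (B i) x⟫_ℝ ∂μ
        ≤ 2 * ∫ x, al w a x * ‖∇ (B0 A c i) x‖ ^ 2 ∂μ + η / (8 * (J + 1)) := fun i => by
      have := hB3 i
      rwa [integral_add (iD i) ((iQB i).const_mul _), integral_const_mul] at this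
    have h4 := Finset.sum_le_sum fun i (_ : i ∈ Finset.univ) => h1 i
    rw [Finset.sum_add_distrib, Finset.sum_add_distrib, ← Finset.mul_sum, ← Finset.mul_sum] at h4
    have h5 : ∑ _i : Option (Fin J), η / (8 * ((J : ℝ) + 1)) = η / 8 := by
      rw [Finset.sum_const, Finset.card_univ, Fintype.card_option, Fintype.card_fin, nsmul_eq_mul]
      push_cast
      field_simp
    rw [h5] at h4
    exact h4
  -- (d)
  have sd : ∑ i, ∫ x, al w a x * ‖∇ (B0 A c i) x‖ ^ 2 ∂μ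
      ≤ (∑ j, ‖a j‖ ^ 2) * ((10 / ε ^ 2 + 1 / ε) * m + W + 1 / ε ^ 2 * N) := by
    have e1 : (∑ j, ‖a j‖ ^ 2) * ((10 / ε ^ 2 + 1 / ε) * m + W + 1 / ε ^ 2 * N)
        = ∫ x, (∑ j, ‖a j‖ ^ 2) * ((10 / ε ^ 2 + 1 / ε) + max (w x) 0 / sq2 (aff A c x)
            + 1 / ε ^ 2 * max (-w x) 0) ∂μ := by
      have g1 := integral_add ((integrable_const (μ := μ) (10 / ε ^ 2 + 1 / ε)).add iW)
        (iwm.const_mul (1 / ε ^ 2))
      have g2 := integral_add (integrable_const (μ := μ) (10 / ε ^ 2 + 1 / ε)) iW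
      simp only [Pi.add_apply] at g1 g2
      rw [integral_const_mul, g1, g2, integral_const_mul, integral_const, smul_eq_mul]
      ring
    rw [e1, ← integral_finsetSum _ fun i _ => iG i]
    refine integral_mono (integrable_finsetSum _ fun i _ => iG i)
      ((((integrable_const _).add iW).add (iwm.const_mul _)).const_mul _) fun x => ?_
    simp only
    rw [← Finset.mul_sum]
    have hS0 := hpos x
    calc al w a x * ∑ i, ‖∇ (B0 A c i) x‖ ^ 2
        ≤ al w a x * ((∑ j, ‖a j‖ ^ 2) / sq2 (aff A c x)) :=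
          mul_le_mul_of_nonneg_left (hG3' x) (al_nonneg _ _ _)
      _ = (∑ j, ‖a j‖ ^ 2) * (al w a x / sq2 (aff A c x)) := by ring
      _ ≤ _ := by
        refine mul_le_mul_of_nonneg_left ?_ hc20
        have h1 := al_le w a x
        have hr0 : 0 < Real.sqrt (sq2 (aff A c x)) := Real.sqrt_pos.2 hS0
        have hrr : Real.sqrt (sq2 (aff A c x)) ^ 2 = sq2 (aff A c x) := Real.sq_sqrt hS0.le
        have h2 : Real.sqrt (∑ j, ⟪a j, x⟫_ℝ ^ 2) ≤ Real.sqrt (sq2 (aff A c x)) := by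
          apply Real.sqrt_le_sqrt
          rw [hsq]; linarith [sq_nonneg ε]
        have h3 : ε ≤ Real.sqrt (sq2 (aff A c x)) := Real.le_sqrt_of_sq_le (hsqε x)
        have h4 : |w x| = max (w x) 0 + max (-w x) 0 := by
          rcases le_total 0 (w x) with h | h
          · rw [abs_of_nonneg h, max_eq_left h, max_eq_right (by linarith)]; ring
          · rw [abs_of_nonpos h, max_eq_right h, max_eq_left (by linarith)]; ring
        rw [h4] at h1
        have h5 : Real.sqrt (sq2 (aff A c x)) / sq2 (aff A c x) ≤ 1 / ε := by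
          have : Real.sqrt (sq2 (aff A c x)) / sq2 (aff A c x)
              = 1 / Real.sqrt (sq2 (aff A c x)) := by
            rw [div_eq_div_iff hS0.ne' hr0.ne', one_mul, ← sq, hrr]
          rw [this]
          exact one_div_le_one_div_of_le hε h3
        have h6 : 10 / sq2 (aff A c x) ≤ 10 / ε ^ 2 :=
          div_le_div_of_nonneg_left (by norm_num) (by positivity) (hsqε x)
        have h7 : max (-w x) 0 / sq2 (aff A c x) ≤ 1 / ε ^ 2 * max (-w x) 0 := by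
          rw [one_div, mul_comm, ← div_eq_mul_inv]
          exact div_le_div_of_nonneg_left (le_max_right _ _) (by positivity) (hsqε x)
        calc al w a x / sq2 (aff A c x)
            ≤ (10 + (max (w x) 0 + max (-w x) 0) + Real.sqrt (sq2 (aff A c x)))
                / sq2 (aff A c x) :=
              div_le_div_of_nonneg_right (by linarith) hS0.le
          _ = 10 / sq2 (aff A c x) + max (w x) 0 / sq2 (aff A c x)
              + max (-w x) 0 / sq2 (aff A c x)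
              + Real.sqrt (sq2 (aff A c x)) / sq2 (aff A c x) := by ring
          _ ≤ _ := by linarith
  -- (e)
  have se : 2 * ∫ x, Real.sqrt (∑ j, ⟪a j, x⟫_ℝ ^ 2) ∂μ
      ≤ ∫ x, (2 * ∑ j, ⟪a j, x⟫_ℝ * b (some j) x - ∑ j, w x * b (some j) x ^ 2
      - (1 - κ) * (w x * b none x ^ 2)) ∂μ + ∫ x, w x ∂μ + 2 * ε * m + κ * N
        - κ * ε ^ 2 / 2 * W + 7 * ∑ i, ∫ x, al w a x * (B i x - B0 A c i x) ^ 2 ∂μ := by
    have iS : Integrable (fun x => ∑ i, al w a x * (B i x - B0 A c i x) ^ 2) μ :=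
      integrable_finsetSum _ fun i _ => iD i
    have i0 := (iF1.sub iF2).sub iF3
    have i1 := i0.add hwi
    have i2 := i1.add (integrable_const (2 * ε))
    have i3 := i2.add (iwm.const_mul κ)
    have i4 := i3.sub (iW.const_mul (κ * ε ^ 2 / 2))
    have e1 : ∫ x, (2 * ∑ j, ⟪a j, x⟫_ℝ * b (some j) x - ∑ j, w x * b (some j) x ^ 2
      - (1 - κ) * (w x * b none x ^ 2)) ∂μ + ∫ x, w x ∂μ + 2 * ε * m + κ * N
        - κ * ε ^ 2 / 2 * W + 7 * ∑ i, ∫ x, al w a x * (B i x - B0 A c i x) ^ 2 ∂μ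
        = ∫ x, ((2 * ∑ j, ⟪a j, x⟫_ℝ * b (some j) x - ∑ j, w x * b (some j) x ^ 2
      - (1 - κ) * (w x * b none x ^ 2)) + w x + 2 * ε + κ * max (-w x) 0
        - κ * ε ^ 2 / 2 * (max (w x) 0 / sq2 (aff A c x))
        + 7 * ∑ i, al w a x * (B i x - B0 A c i x) ^ 2) ∂μ := by
      rw [← integral_finsetSum _ fun i _ => iD i]
      have g5 := integral_add i4 (iS.const_mul 7)
      have g4 := integral_sub i3 (iW.const_mul (κ * ε ^ 2 / 2))
      have g3 := integral_add i2 (iwm.const_mul κ)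
      have g2 := integral_add i1 (integrable_const (μ := μ) (2 * ε))
      have g1 := integral_add i0 hwi
      simp only [Pi.add_apply, Pi.sub_apply] at g1 g2 g3 g4 g5
      rw [g5, g4, g3, g2, g1]
      simp only [integral_const_mul, integral_const, smul_eq_mul]
      ring
    rw [e1, ← integral_const_mul]
    refine integral_mono (iz.const_mul 2) (i4.add (iS.const_mul 7)) fun x => ?_
    simp only [Pi.add_apply, Pi.sub_apply]
    have h := pw (J := J) (aff A c x) (fun i => B i x) (ε := ε) (κ := κ) (w := w x)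
      (a := al w a x) (hu0 x) hε hε1 hκ hκ1 (by simp only [huj]; rfl)
    simp only [huj] at h
    rw [← Finset.mul_sum, ← Finset.mul_sum]
    rw [hbdef]
    unfold sq2 at h
    unfold sq2
    exact h
  -- conclusion
  have sD0 : 0 ≤ ∑ i, ∫ x, al w a x * (B i x - B0 A c i x) ^ 2 ∂μ :=
    Finset.sum_nonneg fun i _ => integral_nonneg fun x =>
      mul_nonneg (al_nonneg _ _ _) (sq_nonneg _)
  have f1 : (∑ j, ‖a j‖ ^ 2) * ((10 / ε ^ 2 + 1 / ε) * m + W + 1 / ε ^ 2 * N)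
      ≤ c1 ^ 3 / 10240 * ((10 / ε ^ 2 + 1 / ε) * m + W + 1 / ε ^ 2 * (5 * m)) := by
    apply mul_le_mul hc2 _ (by positivity) (by positivity)
    have : 1 / ε ^ 2 * N ≤ 1 / ε ^ 2 * (5 * m) := mul_le_mul_of_nonneg_left LN (by positivity)
    linarith
  have f2 : 16 * (c1 ^ 3 / 10240 * ((10 / ε ^ 2 + 1 / ε) * m + W + 1 / ε ^ 2 * (5 * m)))
      = κ * ε ^ 2 / 2 * W + (c1 * (3 / 8) + c1 ^ 2 / 160) * m := by
    rw [hεdef, hκdef]
    field_simp
    ring
  have f3 : κ * N ≤ c1 / 4 * m := by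
    calc κ * N ≤ κ * (5 * m) := mul_le_mul_of_nonneg_left LN hκ
      _ = c1 / 4 * m := by rw [hκdef]; ring
  have f4 : (c1 * (3 / 8) + c1 ^ 2 / 160) * m ≤ c1 * m := by
    apply mul_le_mul_of_nonneg_right _ hm0
    nlinarith
  have f5 : 2 * ε * m = c1 / 2 * m := by rw [hεdef]; ring
  have f6 : 0 ≤ c1 * m := by positivity
  linarith

end Vale.Agent.P262.H161
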