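import Mathlib

/-! Pointwise inequalities for Step 5 of the proof of (J) (smooth retraction `psi y = 2y/(1+|y|^2)`). -/

open scoped BigOperators InnerProductSpace
open Finset

namespace Vale.Agent.P262.H161

variable {ι : Type*} [Fintype ι]

/-- squared length -/
noncomputable def sq2 (y : ι → ℝ) : ℝ := ∑ i, y i ^ 2

/-- the smooth retraction on the unit ball -/
noncomputable def ret (y : ι → ℝ) (i : ι) : ℝ := 2 * y i / (1 + sq2 y)

lemma sq2_nonneg (y : ι → ℝ) : 0 ≤ sq2 y := Finset.sum_nonneg fun i _ => sq_nonneg _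

lemma one_add_sq2_pos (y : ι → ℝ) : 0 < 1 + sq2 y := by linarith [sq2_nonneg y]

lemma sq2_ret (y : ι → ℝ) : sq2 (ret y) = 4 * sq2 y / (1 + sq2 y) ^ 2 := by
  have h := one_add_sq2_pos y
  unfold sq2 ret
  simp only [div_pow, mul_pow]
  rw [← Finset.sum_div, ← Finset.mul_sum]
  congr 1
  norm_num

lemma sq2_ret_le_one (y : ι → ℝ) : sq2 (ret y) ≤ 1 := by
  rw [sq2_ret, div_le_one (by have := one_add_sq2_pos y; positivity)]
  nlinarith [sq_nonneg (1 - sq2 y)]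

lemma abs_ret_le_one (y : ι → ℝ) (i : ι) : |ret y i| ≤ 1 := by
  have h1 : ret y i ^ 2 ≤ sq2 (ret y) :=
    Finset.single_le_sum (f := fun i => ret y i ^ 2) (fun i _ => sq_nonneg _) (Finset.mem_univ i)
  have h2 := sq2_ret_le_one y
  rw [← sq_le_one_iff_abs_le_one]
  linarith

/-- scalar product of two families -/
noncomputable def dot (y v : ι → ℝ) : ℝ := ∑ i, y i * v i

lemma sq2_sub (y v : ι → ℝ) : sq2 (fun i => y i - v i) = sq2 y - 2 * dot y v + sq2 v := by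
  unfold sq2 dot
  rw [Finset.mul_sum, ← Finset.sum_sub_distrib, ← Finset.sum_add_distrib]
  refine Finset.sum_congr rfl fun i _ => by ring

lemma dot_le (y v : ι → ℝ) (hv : sq2 v = 1) : dot y v ≤ Real.sqrt (sq2 y) := by
  have h := Finset.sum_mul_sq_le_sq_mul_sq Finset.univ y v
  have h1 : (∑ i, v i ^ 2) = 1 := hv
  rw [h1, mul_one] at h
  exact Real.le_sqrt_of_sq_le h

lemma dot_ret (y v : ι → ℝ) : dot (ret y) v = 2 * dot y v / (1 + sq2 y) := by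
  unfold dot ret
  rw [Finset.mul_sum, Finset.sum_div]
  refine Finset.sum_congr rfl fun i _ => by ring

/-- `(P2)`. -/
lemma one_sub_sq2_ret_le (y v : ι → ℝ) (hv : sq2 v = 1) :
    1 - sq2 (ret y) ≤ 3 / 2 * sq2 (fun i => y i - v i) := by
  have hp := one_add_sq2_pos y
  set s := Real.sqrt (sq2 y) with hs
  have hs0 : 0 ≤ s := Real.sqrt_nonneg _
  have hs2 : s ^ 2 = sq2 y := Real.sq_sqrt (sq2_nonneg y)
  have hd := dot_le y v hv
  rw [sq2_ret, sq2_sub, hv]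
  rw [← hs2] at hp ⊢
  have h1 : (1 - s) ^ 2 ≤ s ^ 2 - 2 * dot y v + 1 := by nlinarith
  have h2 : 1 - 4 * s ^ 2 / (1 + s ^ 2) ^ 2 ≤ 3 / 2 * (1 - s) ^ 2 := by
    have h3 : 1 - 4 * s ^ 2 / (1 + s ^ 2) ^ 2 = (1 - s) ^ 2 * (1 + s) ^ 2 / (1 + s ^ 2) ^ 2 := by
      field_simp
      ring
    rw [h3, div_le_iff₀ (by positivity)]
    have h4 : (1 + s) ^ 2 ≤ 3 / 2 * (1 + s ^ 2) ^ 2 := by nlinarith [sq_nonneg (1 - 2 * s), sq_nonneg (s ^ 2)]
    nlinarith [mul_le_mul_of_nonneg_left h4 (sq_nonneg (1 - s))]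
  linarith

/-- `(P3)`. -/
lemma sq2_ret_sub_le (y v : ι → ℝ) (hv : sq2 v = 1) :
    sq2 (fun i => ret y i - v i) ≤ 4 * sq2 (fun i => y i - v i) := by
  have hp := one_add_sq2_pos y
  set s := Real.sqrt (sq2 y) with hs
  have hs0 : 0 ≤ s := Real.sqrt_nonneg _
  have hs2 : s ^ 2 = sq2 y := Real.sq_sqrt (sq2_nonneg y)
  have hd := dot_le y v hv
  have h0 : sq2 (fun i => ret y i - v i) = sq2 (ret y) - 2 * dot (ret y) v + sq2 v := sq2_sub _ _
  rw [h0, sq2_sub, hv, sq2_ret, dot_ret]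
  rw [← hs2] at hp ⊢
  set p := dot y v with hpdef
  have e1 : 4 * (s ^ 2 - 2 * p + 1) - (4 * s ^ 2 / (1 + s ^ 2) ^ 2 - 2 * (2 * p / (1 + s ^ 2)) + 1)
      = (s - p) * (8 - 4 / (1 + s ^ 2)) + (1 - s) ^ 2 * (4 - (1 - s) ^ 2 / (1 + s ^ 2) ^ 2) := by
    field_simp
    ring
  have e2 : 0 ≤ (s - p) * (8 - 4 / (1 + s ^ 2)) := by
    apply mul_nonneg (by linarith)
    have : 4 / (1 + s ^ 2) ≤ 4 := by
      rw [div_le_iff₀ hp]; nlinarith [sq_nonneg s]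
    linarith
  have e3 : 0 ≤ (1 - s) ^ 2 * (4 - (1 - s) ^ 2 / (1 + s ^ 2) ^ 2) := by
    apply mul_nonneg (sq_nonneg _)
    have : (1 - s) ^ 2 / (1 + s ^ 2) ^ 2 ≤ 4 := by
      rw [div_le_iff₀ (by positivity)]
      nlinarith [sq_nonneg s, sq_nonneg (s ^ 2), sq_nonneg (1 + s)]
    linarith
  linarith

/-- `(P4)`. -/
lemma one_sub_dot_ret_le (y v : ι → ℝ) (hv : sq2 v = 1) :
    1 - dot (ret y) v ≤ 11 / 4 * sq2 (fun i => y i - v i) := by
  have h1 := one_sub_sq2_ret_le y v hv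
  have h2 := sq2_ret_sub_le y v hv
  have h0 : sq2 (fun i => ret y i - v i) = sq2 (ret y) - 2 * dot (ret y) v + sq2 v := sq2_sub _ _
  rw [hv] at h0
  linarith

/-- `(P5)`: one coordinate of the retraction. -/
lemma ret_sq_ge (y v : ι → ℝ) (hv : sq2 v = 1) (i : ι) :
    1 / 2 * v i ^ 2 - 4 * sq2 (fun i => y i - v i) ≤ ret y i ^ 2 := by
  have h2 := sq2_ret_sub_le y v hv
  have h1 : (ret y i - v i) ^ 2 ≤ sq2 (fun i => ret y i - v i) :=
    Finset.single_le_sum (f := fun i => (ret y i - v i) ^ 2) (fun i _ => sq_nonneg _)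
      (Finset.mem_univ i)
  nlinarith [sq_nonneg (2 * (ret y i - v i) + v i), sq_nonneg (ret y i + (ret y i - v i))]

variable {E : Type*} [NormedAddCommGroup E] [InnerProductSpace ℝ E]

/-- `(P6)`: the gradient of the retraction in a nonnegative form. -/
lemma grad_ret_le (M : E →ₗ[ℝ] E) (hM : ∀ u v, ⟪M u, v⟫_ℝ = ⟪u, M v⟫_ℝ)
    (hM0 : ∀ u, 0 ≤ ⟪M u, u⟫_ℝ) (y : ι → ℝ) (g : ι → E) :
    ∑ i, ⟪M ((2 / (1 + sq2 y)) • g i - (4 / (1 + sq2 y) ^ 2 * y i) • ∑ j, y j • g j),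
        (2 / (1 + sq2 y)) • g i - (4 / (1 + sq2 y) ^ 2 * y i) • ∑ j, y j • g j⟫_ℝ
      ≤ 4 * ∑ i, ⟪M (g i), g i⟫_ℝ := by
  have hp := one_add_sq2_pos y
  set al := 2 / (1 + sq2 y) with hal
  set be := 4 / (1 + sq2 y) ^ 2 with hbe
  set s := ∑ j, y j • g j with hs
  have e1 : ∀ i, ⟪M (al • g i - (be * y i) • s), al • g i - (be * y i) • s⟫_ℝ
      = al ^ 2 * ⟪M (g i), g i⟫_ℝ - 2 * al * be * (y i * ⟪M s, g i⟫_ℝ)
        + be ^ 2 * (y i ^ 2) * ⟪M s, s⟫_ℝ := by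
    intro i
    have hsym : ⟪M (g i), s⟫_ℝ = ⟪M s, g i⟫_ℝ := by
      rw [hM, real_inner_comm]
    simp only [map_sub, map_smul, inner_sub_left, inner_sub_right, inner_smul_left,
      inner_smul_right, RCLike.conj_to_real]
    rw [hsym]
    ring
  have e2 : ∑ i, y i * ⟪M s, g i⟫_ℝ = ⟪M s, s⟫_ℝ := by
    conv_rhs => rw [hs]
    rw [← hs, inner_sum]
    refine Finset.sum_congr rfl fun i _ => by rw [inner_smul_right]
  have e3 : ∑ i, ⟪M (al • g i - (be * y i) • s), al • g i - (be * y i) • s⟫_ℝ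
      = al ^ 2 * ∑ i, ⟪M (g i), g i⟫_ℝ - 2 * al * be * ⟪M s, s⟫_ℝ
        + be ^ 2 * sq2 y * ⟪M s, s⟫_ℝ := by
    rw [Finset.sum_congr rfl fun i _ => e1 i, Finset.sum_add_distrib, Finset.sum_sub_distrib,
      ← Finset.mul_sum, ← Finset.mul_sum, e2]
    congr 1
    unfold sq2
    rw [Finset.mul_sum, Finset.sum_mul]
  rw [e3]
  have hq : 0 ≤ ∑ i, ⟪M (g i), g i⟫_ℝ := Finset.sum_nonneg fun i _ => hM0 _
  have hss := hM0 s
  have h1 : al ^ 2 ≤ 4 := by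
    have : al ≤ 2 := by
      rw [hal, div_le_iff₀ hp]; nlinarith [sq2_nonneg y]
    have h0 : 0 ≤ al := by rw [hal]; positivity
    nlinarith
  have h2 : be ^ 2 * sq2 y ≤ 2 * al * be := by
    have h3 : 2 * al * be - be ^ 2 * sq2 y = 16 / (1 + sq2 y) ^ 4 := by
      rw [hal, hbe]; field_simp; ring
    have : 0 ≤ 16 / (1 + sq2 y) ^ 4 := by positivity
    linarith
  nlinarith [mul_le_mul_of_nonneg_right h1 hq, mul_le_mul_of_nonneg_right h2 hss]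

end Vale.Agent.P262.H161
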